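import Vale.Agent.P057.R3.H664.Core

set_option autoImplicit false

/-!
P042, relative density inside digit statistics sets: few classes of words.
-/

namespace Vale.Agent.P042.H499

open Finset Vale.Agent.P057.H380 Vale.Agent.P057.R3.H664

section count

variable {Q M : Type} [AddCommMonoid M] [Fintype Q] [DecidableEq Q]

/-- How often the edge `e` is used when `w` is read from the state `q`. -/
def cn (b : ℕ) (δ : Q → ℕ → Q × M) : Q → List ℕ → Q × Fin b → ℕ
  | _, [], _ => 0
  | q, d :: w, e => (if (q, d) = (e.1, (e.2 : ℕ)) then 1 else 0) + cn b δ (δ q d).1 w e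

theorem cn_le (b : ℕ) (δ : Q → ℕ → Q × M) (w : List ℕ) :
    ∀ (q : Q) (e : Q × Fin b), cn b δ q w e ≤ w.length := by
  induction w with
  | nil => intro q e; simp [cn]
  | cons d w ih =>
    intro q e
    have h1 := ih (δ q d).1 e
    simp only [cn, List.length_cons]
    split_ifs <;> omega

theorem run_out (b : ℕ) (δ : Q → ℕ → Q × M) (w : List ℕ) :
    ∀ q : Q, Dig b w → (run δ q w).2 = ∑ e : Q × Fin b, cn b δ q w e • (δ e.1 e.2).2 := by
  induction w with
  | nil => intro q _; simp [run, cn]
  | cons d w ih =>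
    intro q hw
    have hd : d < b := hw d (List.mem_cons_self ..)
    have hw' : Dig b w := fun x hx => hw x (List.mem_cons_of_mem _ hx)
    have h1 := ih (δ q d).1 hw'
    simp only [run, cn]
    rw [h1]
    have h2 : ∀ e : Q × Fin b,
        ((if (q, d) = (e.1, (e.2 : ℕ)) then 1 else 0) + cn b δ (δ q d).1 w e) • (δ e.1 e.2).2 =
        (if e = (q, (⟨d, hd⟩ : Fin b)) then (δ q d).2 else 0) +
          cn b δ (δ q d).1 w e • (δ e.1 e.2).2 := by
      intro e
      rw [add_smul]
      congr 1
      by_cases he : e = (q, (⟨d, hd⟩ : Fin b))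
      · subst he
        simp
      · rw [if_neg he, if_neg, zero_smul]
        intro h3
        apply he
        rw [Prod.mk.injEq] at h3
        exact Prod.ext h3.1.symm (Fin.ext h3.2.symm)
    rw [Finset.sum_congr rfl fun e _ => h2 e, Finset.sum_add_distrib]
    simp

/-- The finite data that determine the action and the outputs of a word. -/
def key (b m : ℕ) (δ : Q → ℕ → Q × M) (w : List ℕ) :
    (Q → Q) × (Q → Q × Fin b → Fin (m + 1)) :=
  (fun q => (run δ q w).1, fun q e => ⟨min (cn b δ q w e) m, by omega⟩)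

theorem run_eq_of_key {b m : ℕ} (δ : Q → ℕ → Q × M) {w w' : List ℕ} (hw : Dig b w)
    (hw' : Dig b w') (hl : w.length ≤ m) (hl' : w'.length ≤ m)
    (h : key b m δ w = key b m δ w') (q : Q) : run δ q w = run δ q w' := by
  have h1 := congrFun (congrArg Prod.fst h) q
  have h2 : ∀ e, cn b δ q w e = cn b δ q w' e := by
    intro e
    have h3 := congrFun (congrFun (congrArg Prod.snd h) q) e
    have h4 := congrArg Fin.val h3
    simp only [key] at h4
    have h5 := cn_le b δ w q e
    have h6 := cn_le b δ w' q e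
    rw [min_eq_left (h5.trans hl), min_eq_left (h6.trans hl')] at h4
    exact h4
  refine Prod.ext h1 ?_
  rw [run_out b δ w q hw, run_out b δ w' q hw']
  exact Finset.sum_congr rfl fun e _ => by rw [h2 e]

theorem card_key (b m : ℕ) :
    Fintype.card ((Q → Q) × (Q → Q × Fin b → Fin (m + 1))) =
      Fintype.card Q ^ Fintype.card Q *
        ((m + 1) ^ (Fintype.card Q * b)) ^ Fintype.card Q := by
  rw [Fintype.card_prod, Fintype.card_fun, Fintype.card_fun, Fintype.card_fun, Fintype.card_prod,
    Fintype.card_fin, Fintype.card_fin]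

end count

/-- The word with the digits of `u` and top digit `1`. -/
def wd (b m u : ℕ) : List ℕ := pad b m u ++ [1]

theorem wd_length (b m u : ℕ) : (wd b m u).length = m + 1 := by
  rw [wd, List.length_append, pad_length]; rfl

theorem wd_dig {b : ℕ} (hb : 2 ≤ b) (m u : ℕ) : Dig b (wd b m u) := by
  intro d hd
  rcases List.mem_append.1 hd with h | h
  · exact pad_dig hb m u d h
  · rw [List.mem_singleton] at h
    omega

theorem wd_last (b m u : ℕ) : (wd b m u).getLast? = some 1 := by
  rw [wd, List.getLast?_append]; simp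

theorem wd_val {b : ℕ} (hb : 2 ≤ b) {m u : ℕ} (hu : u < b ^ m) :
    Nat.ofDigits b (wd b m u) = u + b ^ m := by
  rw [wd, Nat.ofDigits_append, pad_val hb m u hu, pad_length, Nat.ofDigits_singleton, mul_one]

/-- Some class of words of length `m + 1` with top digit `1` has at least the proportion
`1 / polynomial`. -/
theorem exists_class {Q Q' : Type} [Finite Q] [Finite Q'] {b : ℕ} (hb : 2 ≤ b) :
    ∃ c E : ℕ, ∀ {M M' : Type} [AddCommMonoid M] [AddCommMonoid M'] (δ : Q → ℕ → Q × M)
      (δ' : Q' → ℕ → Q' × M') (m : ℕ), ∃ F : Finset ℕ, F ⊆ range (b ^ m) ∧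
      b ^ m ≤ c * (m + 2) ^ E * F.card ∧
      ∀ u ∈ F, ∀ u' ∈ F, (∀ q, run δ q (wd b m u) = run δ q (wd b m u')) ∧
        (∀ q, run δ' q (wd b m u).reverse = run δ' q (wd b m u').reverse) := by
  classical
  haveI := Fintype.ofFinite Q
  haveI := Fintype.ofFinite Q'
  refine ⟨Fintype.card Q ^ Fintype.card Q * Fintype.card Q' ^ Fintype.card Q',
    Fintype.card Q * b * Fintype.card Q + Fintype.card Q' * b * Fintype.card Q', ?_⟩
  intro M M' _ _ δ δ' m
  let κ : ℕ → ((Q → Q) × (Q → Q × Fin b → Fin (m + 1 + 1))) ×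
      ((Q' → Q') × (Q' → Q' × Fin b → Fin (m + 1 + 1))) :=
    fun u => (key b (m + 1) δ (wd b m u), key b (m + 1) δ' (wd b m u).reverse)
  obtain ⟨z, hz⟩ : ∃ z, b ^ m ≤ Fintype.card (((Q → Q) × (Q → Q × Fin b → Fin (m + 1 + 1))) ×
      ((Q' → Q') × (Q' → Q' × Fin b → Fin (m + 1 + 1)))) *
        ((range (b ^ m)).filter (fun u => κ u = z)).card := by
    by_contra hcon
    push_neg at hcon
    set K := Fintype.card (((Q → Q) × (Q → Q × Fin b → Fin (m + 1 + 1))) ×
      ((Q' → Q') × (Q' → Q' × Fin b → Fin (m + 1 + 1)))) with hK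
    have h1 : ∑ z, ((range (b ^ m)).filter (fun u => κ u = z)).card = b ^ m := by
      rw [← Finset.card_eq_sum_card_fiberwise (fun u _ => Finset.mem_coe.2 (Finset.mem_univ (κ u))),
        card_range]
    have h2 : K * b ^ m < K * b ^ m := by
      calc K * b ^ m = ∑ z, K * ((range (b ^ m)).filter (fun u => κ u = z)).card := by
            rw [← Finset.mul_sum, h1]
        _ < ∑ _z : ((Q → Q) × (Q → Q × Fin b → Fin (m + 1 + 1))) ×
            ((Q' → Q') × (Q' → Q' × Fin b → Fin (m + 1 + 1))), b ^ m :=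
            Finset.sum_lt_sum_of_nonempty ⟨κ 0, Finset.mem_univ _⟩ fun z _ => hcon z
        _ = K * b ^ m := by rw [Finset.sum_const, smul_eq_mul, Finset.card_univ]
    exact lt_irrefl _ h2
  refine ⟨(range (b ^ m)).filter (fun u => κ u = z), Finset.filter_subset _ _, ?_, ?_⟩
  · refine hz.trans (le_of_eq ?_)
    congr 1
    rw [Fintype.card_prod, card_key, card_key, ← pow_mul, ← pow_mul, pow_add]
    ring
  · intro u hu u' hu'
    have h1 := (Finset.mem_filter.1 hu).2
    have h2 := (Finset.mem_filter.1 hu').2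
    have h3 : κ u = κ u' := h1.trans h2.symm
    have h4 := congrArg Prod.fst h3
    have h5 := congrArg Prod.snd h3
    have hr : ∀ v : ℕ, Dig b (wd b m v).reverse := fun v d hd =>
      wd_dig hb m v d (List.mem_reverse.1 hd)
    refine ⟨fun q => run_eq_of_key δ (wd_dig hb m u) (wd_dig hb m u') (wd_length b m u).le
      (wd_length b m u').le h4 q, fun q => run_eq_of_key δ' (hr u) (hr u') ?_ ?_ h5 q⟩
    · rw [List.length_reverse, wd_length]
    · rw [List.length_reverse, wd_length]

end Vale.Agent.P042.H499
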