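import Vale.Agent.P042.R2.H499.Part
import Vale.Agent.P042.R2.H499.Classes
import Vale.Agent.P057.R3.H664.ShiftIff

set_option autoImplicit false

/-!
P042, relative density inside sets defined by digits: the core for a congruence on words.
-/

namespace Vale.Agent.P042.H499

open Finset Vale.Agent.P057.H380 Vale.Agent.P057.R3.H664

/-- Windows of one class can be exchanged. -/
theorem exchange_cong {b : ℕ} (hb : 2 ≤ b) {r : List ℕ → List ℕ → Prop} (hr : Cong r) {A : Set ℕ}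
    (hA : ∀ m n : ℕ, r (Nat.digits b m) (Nat.digits b n) → (m ∈ A ↔ n ∈ A))
    {m u u' : ℕ} (hu : u < b ^ m) (hu' : u' < b ^ m)
    (huu : u ≤ u') (hs : r (wd b m u) (wd b m u')) {n i : ℕ}
    (hn : n / (b ^ (m + 1)) ^ i % b ^ (m + 1) = u + b ^ m) :
    (n ∈ A ↔ n + (u' + b ^ m - (u + b ^ m)) * (b ^ (m + 1)) ^ i ∈ A) := by
  have h := shift_iff hb hr (A := A) hA (k := 2)
    (w := fun j => if j = 0 then wd b m u else wd b m u') (D := u' - u) (m := m + 1) (n := n)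
    (i := i) ?_ ?_ 1 (by norm_num)
  · have e : u' + b ^ m - (u + b ^ m) = u' - u := by omega
    rw [e]
    simpa using h
  · intro j hj
    rcases Nat.eq_zero_or_pos j with h0 | h0
    · subst h0
      simp only [if_true]
      refine ⟨wd_dig hb m u, wd_length b m u, wd_last b m u, hr.eqv.refl _, ?_⟩
      simp
    · obtain rfl : j = 1 := by omega
      simp only [one_ne_zero, if_false, if_true]
      refine ⟨wd_dig hb m u', wd_length b m u', wd_last b m u', hs, ?_⟩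
      rw [wd_val hb hu', wd_val hb hu]
      omega
  · simp only [if_true]
    rw [hn, wd_val hb hu]

/-- Powers of `B - 1`. -/
theorem to_rpow {B : ℕ} (hB : 3 ≤ B) : ∃ θ : ℝ, 0 < θ ∧ θ < 1 ∧ ∀ N : ℕ, 1 ≤ N →
    ∃ T : ℕ, N + 1 ≤ B ^ T ∧ ((B - 1 : ℕ) : ℝ) ^ T ≤ (B : ℝ) * (N : ℝ) ^ θ := by
  have hB1 : (2 : ℝ) ≤ ((B - 1 : ℕ) : ℝ) := by
    have : 2 ≤ B - 1 := by omega
    exact_mod_cast this
  have hB2 : ((B - 1 : ℕ) : ℝ) < (B : ℝ) := by
    have : B - 1 < B := by omega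
    exact_mod_cast this
  have hB0 : (0 : ℝ) < (B : ℝ) := by linarith
  have hlB : 0 < Real.log B := Real.log_pos (by linarith)
  have hlB1 : 0 < Real.log ((B - 1 : ℕ) : ℝ) := Real.log_pos (by linarith)
  refine ⟨Real.log ((B - 1 : ℕ) : ℝ) / Real.log B, div_pos hlB1 hlB, ?_, ?_⟩
  · rw [div_lt_one hlB]
    exact Real.log_lt_log (by linarith) hB2
  · intro N hN
    refine ⟨Nat.log B N + 1, Nat.lt_pow_succ_log_self (by omega) N, ?_⟩
    have h1 : (B : ℝ) ^ (Nat.log B N) ≤ N := by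
      have := Nat.pow_log_le_self B (x := N) (by omega)
      exact_mod_cast this
    have h2 : ((B - 1 : ℕ) : ℝ) = (B : ℝ) ^ (Real.log ((B - 1 : ℕ) : ℝ) / Real.log B) := by
      rw [Real.rpow_def_of_pos hB0, mul_div_cancel₀ _ hlB.ne', Real.exp_log (by linarith)]
    have h3 : ((B - 1 : ℕ) : ℝ) ^ (Nat.log B N) ≤
        (N : ℝ) ^ (Real.log ((B - 1 : ℕ) : ℝ) / Real.log B) := by
      calc ((B - 1 : ℕ) : ℝ) ^ (Nat.log B N)
          = ((B : ℝ) ^ (Nat.log B N)) ^ (Real.log ((B - 1 : ℕ) : ℝ) / Real.log B) := by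
            conv_lhs => rw [h2]
            rw [← Real.rpow_natCast, ← Real.rpow_mul hB0.le, ← Real.rpow_natCast,
              ← Real.rpow_mul hB0.le, mul_comm]
        _ ≤ _ := Real.rpow_le_rpow (by positivity) h1 (div_pos hlB1 hlB).le
    rw [pow_succ, mul_comm]
    exact mul_le_mul hB2.le h3 (by positivity) hB0.le

theorem ncard_le_cnt (A : Set ℕ) (N : ℕ) : (A ∩ Set.Icc 1 N).ncard ≤ cnt A (N + 1) := by
  classical
  unfold cnt
  rw [← Set.ncard_coe_finset]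
  refine Set.ncard_le_ncard ?_ (Finset.finite_toSet _)
  intro x hx
  rw [Finset.mem_coe, Finset.mem_filter, Finset.mem_range]
  exact ⟨by have := hx.2.2; omega, hx.1⟩

theorem cnt_le_ncard (A : Set ℕ) (N : ℕ) : cnt A (N + 1) ≤ (A ∩ Set.Icc 1 N).ncard + 1 := by
  classical
  have hfin : (A ∩ Set.Icc 1 N).Finite := (Set.finite_Icc 1 N).subset Set.inter_subset_right
  unfold cnt
  rw [← Set.ncard_coe_finset]
  have h1 : (((range (N + 1)).filter (fun n => n ∈ A) : Finset ℕ) : Set ℕ) ⊆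
      insert 0 (A ∩ Set.Icc 1 N) := by
    intro x hx
    rw [Finset.mem_coe, Finset.mem_filter, Finset.mem_range] at hx
    rcases Nat.eq_zero_or_pos x with h | h
    · exact Or.inl h
    · exact Or.inr ⟨hx.2, h, by omega⟩
  exact (Set.ncard_le_ncard h1 (hfin.insert 0)).trans (Set.ncard_insert_le _ _)

/-- **Core.** One class `F` of words of length `m + 1` in which the members of `P` have relative
density at most `ε` gives the relative bound for all sets which are unions of classes; the constants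
depend only on `b`, `m`, `ε`. -/
theorem relative_core {b : ℕ} (hb : 2 ≤ b) {m : ℕ} (hm : 1 ≤ m) {ε : ℝ} (hε : 0 < ε) :
    ∃ θ C : ℝ, 0 < θ ∧ θ < 1 ∧ 0 < C ∧
      ∀ {k : ℕ} {r : List ℕ → List ℕ → Prop} (_hr : Cong r) (P : Set ℕ → Prop)
        (_hPm : ∀ A A' : Set ℕ, A' ⊆ A → P A → P A')
        (_hPs : ∀ A : Set ℕ, P A → ∀ m d : ℕ, k ∣ m → P {y | d + b ^ m * y ∈ A})
        (_hkm : k ∣ m + 1) {F : Finset ℕ} (_hFr : F ⊆ range (b ^ m)) (_hF2 : 2 ≤ F.card)
        (_hFs : ∀ u ∈ F, ∀ u' ∈ F, r (wd b m u) (wd b m u'))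
        (_hden : ∀ G : Finset ℕ, G ⊆ range (b ^ (m + 1)) → P (G : Set ℕ) →
          (G.card : ℝ) ≤ ε * F.card),
        ∀ A : Set ℕ,
          (∀ m n : ℕ, r (Nat.digits b m) (Nat.digits b n) → (m ∈ A ↔ n ∈ A)) →
          ∀ A' : Set ℕ, A' ⊆ A → P A' → ∀ N : ℕ, 1 ≤ N →
            ((A' ∩ Set.Icc 1 N).ncard : ℝ) ≤
              ε * ((A ∩ Set.Icc 1 N).ncard : ℝ) + C * (N : ℝ) ^ θ := by
  classical
  set B := b ^ (m + 1) with hBdef
  have hbm : 0 < b ^ m := by positivity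
  have hbm2 : 2 ≤ b ^ m := by
    calc 2 ≤ b := hb
      _ = b ^ 1 := (pow_one b).symm
      _ ≤ b ^ m := Nat.pow_le_pow_right (by omega) hm
  have hBm : 2 * b ^ m ≤ B := by
    rw [hBdef, pow_succ]
    calc 2 * b ^ m ≤ b * b ^ m := Nat.mul_le_mul_right _ hb
      _ = b ^ m * b := mul_comm _ _
  have hB3 : 3 ≤ B := by omega
  obtain ⟨θ, hθ0, hθ1, hθ⟩ := to_rpow hB3
  refine ⟨θ, ε + 2 * B * B, hθ0, hθ1, by positivity, ?_⟩
  intro k r hr P hPm hPs hkm F hFr hF2 hFs hden A hA A' hsub hPA' N hN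
  have hFpos : (0 : ℝ) < F.card := by
    have : 0 < F.card := by omega
    exact_mod_cast this
  set V : Finset ℕ := F.image (fun u => u + b ^ m) with hVdef
  have hVcard : V.card = F.card :=
    Finset.card_image_of_injective _ (add_left_injective (b ^ m))
  have hVr : V ⊆ range B := by
    intro v hv
    obtain ⟨u, hu, rfl⟩ := Finset.mem_image.1 hv
    have h1 := mem_range.1 (hFr hu)
    rw [mem_range]
    omega
  obtain ⟨T, hT1, hT2⟩ := hθ N hN
  set ρ : ℕ := ⌊ε * F.card⌋₊ with hρdef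
  have hρle : (ρ : ℝ) ≤ ε * F.card := Nat.floor_le (by positivity)
  have key := vpart hVr (by omega) (ρ := ρ) P
    (fun A hA d _ => hPs A hA (m + 1) d hkm)
    (by
      intro A hA y G hG hGA
      refine Nat.le_floor ?_
      refine hden G (hG.trans hVr) ?_
      refine hPm {v | B * y + b ^ 0 * v ∈ A} (G : Set ℕ) ?_ (hPs A hA 0 (B * y) (dvd_zero k))
      intro v hv
      have := hGA v (Finset.mem_coe.1 hv)
      rw [Set.mem_ofPred_eq, pow_zero, one_mul, add_comm]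
      exact this) T A
    (by
      intro n i v hv v' hv' hvv hn
      obtain ⟨u, hu, rfl⟩ := Finset.mem_image.1 hv
      obtain ⟨u', hu', rfl⟩ := Finset.mem_image.1 hv'
      exact exchange_cong hb hr hA (mem_range.1 (hFr hu)) (mem_range.1 (hFr hu')) (by omega)
        (hFs u hu u' hu') hn) A' hsub hPA' (N + 1) hT1
  have h1 := ncard_le_cnt A' N
  have h2 := cnt_le_ncard A N
  rw [hVcard] at key
  have h3 : (F.card : ℝ) * (cnt A' (N + 1) : ℝ) ≤
      ρ * (cnt A (N + 1) : ℝ) +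
        2 * (F.card : ℝ) ^ 2 * ((B - 1 : ℕ) : ℝ) ^ T := by
    exact_mod_cast key
  have h1' : ((A' ∩ Set.Icc 1 N).ncard : ℝ) ≤ cnt A' (N + 1) := by exact_mod_cast h1
  have h2' : (cnt A (N + 1) : ℝ) ≤ (A ∩ Set.Icc 1 N).ncard + 1 := by exact_mod_cast h2
  have hFB : (F.card : ℝ) ≤ B := by
    have := Finset.card_le_card hVr
    rw [hVcard, card_range] at this
    exact_mod_cast this
  have hN1 : (1 : ℝ) ≤ (N : ℝ) ^ θ := Real.one_le_rpow (by exact_mod_cast hN) hθ0.le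
  have h4 : (cnt A' (N + 1) : ℝ) ≤ ε * ((A ∩ Set.Icc 1 N).ncard + 1) +
      2 * (F.card : ℝ) * ((B - 1 : ℕ) : ℝ) ^ T := by
    refine le_of_mul_le_mul_left ?_ hFpos
    calc (F.card : ℝ) * (cnt A' (N + 1) : ℝ)
        ≤ ρ * (cnt A (N + 1) : ℝ) +
          2 * (F.card : ℝ) ^ 2 * ((B - 1 : ℕ) : ℝ) ^ T := h3
      _ ≤ (ε * F.card) * ((A ∩ Set.Icc 1 N).ncard + 1) +
          2 * (F.card : ℝ) ^ 2 * ((B - 1 : ℕ) : ℝ) ^ T := by
          gcongr
      _ = _ := by ring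
  have h5 : 2 * (F.card : ℝ) * ((B - 1 : ℕ) : ℝ) ^ T ≤ 2 * B * (B * (N : ℝ) ^ θ) := by
    gcongr
  calc ((A' ∩ Set.Icc 1 N).ncard : ℝ) ≤ _ := h1'
    _ ≤ _ := h4
    _ ≤ ε * ((A ∩ Set.Icc 1 N).ncard + 1) + 2 * B * (B * (N : ℝ) ^ θ) := by
        linarith
    _ ≤ ε * ((A ∩ Set.Icc 1 N).ncard : ℝ) + (ε + 2 * B * B) * (N : ℝ) ^ θ := by
        nlinarith

end Vale.Agent.P042.H499
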