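import Vale.Agent.P042.R2.H499.Core

set_option autoImplicit false

/-!
P042, relative density inside sets defined by digits: monoids with few products of words of
length `m`.
-/

namespace Vale.Agent.P042.H499

open Finset Vale.Agent.P057.H380 Vale.Agent.P057.R3.H664

/-- The products of the words of length `m` in the digits `0, …, b - 1`. -/
def prods {M : Type} [Monoid M] (b : ℕ) (φ : ℕ → M) (m : ℕ) : Set M :=
  {z | ∃ w : List ℕ, w.length = m ∧ (∀ d ∈ w, d < b) ∧ (w.map φ).prod = z}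

/-- The numbers whose digit word in base `b` has its product in `S`. -/
def digitSet {M : Type} [Monoid M] (b : ℕ) (φ : ℕ → M) (S : Set M) : Set ℕ :=
  {n | ((Nat.digits b n).map φ).prod ∈ S}

theorem prods_finite {M : Type} [Monoid M] (b : ℕ) (φ : ℕ → M) (m : ℕ) :
    (prods b φ m).Finite := by
  induction m with
  | zero =>
    refine (Set.finite_singleton (1 : M)).subset ?_
    rintro z ⟨w, hw, -, rfl⟩
    rw [List.length_eq_zero_iff] at hw
    subst hw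
    simp
  | succ m ih =>
    refine (Set.Finite.image2 (fun (d : ℕ) (z : M) => φ d * z) (Set.finite_Iio b) ih).subset ?_
    rintro z ⟨w, hw, hd, rfl⟩
    match w, hw, hd with
    | d :: w, hw, hd =>
      refine ⟨d, hd d (List.mem_cons_self ..), (w.map φ).prod, ⟨w, ?_, ?_, rfl⟩, ?_⟩
      · simpa using hw
      · intro x hx
        exact hd x (List.mem_cons_of_mem _ hx)
      · simp

theorem prod_cong {M : Type} [Monoid M] (φ : ℕ → M) :
    Cong (fun u v : List ℕ => (u.map φ).prod = (v.map φ).prod) where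
  eqv := ⟨fun _ => rfl, fun h => h.symm, fun h h' => h.trans h'⟩
  app := by
    intro u u' v v' hu hv
    simp only [List.map_append, List.prod_append]
    rw [hu, hv]

theorem exists_classM {M : Type} [Monoid M] {b : ℕ} (hb : 2 ≤ b) (φ : ℕ → M) (m : ℕ) :
    ∃ F : Finset ℕ, F ⊆ range (b ^ m) ∧ b ^ m ≤ (prods b φ (m + 1)).ncard * F.card ∧
      ∀ u ∈ F, ∀ u' ∈ F, ((wd b m u).map φ).prod = ((wd b m u').map φ).prod := by
  classical
  have hfin := prods_finite b φ (m + 1)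
  set T := hfin.toFinset with hT
  have hmem : ∀ u, ((wd b m u).map φ).prod ∈ T := by
    intro u
    rw [hT, Set.Finite.mem_toFinset]
    exact ⟨wd b m u, wd_length b m u, wd_dig hb m u, rfl⟩
  have hcard : (prods b φ (m + 1)).ncard = T.card := Set.ncard_eq_toFinset_card _ hfin
  rw [hcard]
  obtain ⟨z, -, hz⟩ : ∃ z ∈ T, b ^ m ≤ T.card *
      ((range (b ^ m)).filter (fun u => ((wd b m u).map φ).prod = z)).card := by
    by_contra hcon
    push Not at hcon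
    have h1 : ∑ z ∈ T, ((range (b ^ m)).filter
        (fun u => ((wd b m u).map φ).prod = z)).card = b ^ m := by
      rw [← Finset.card_eq_sum_card_fiberwise (fun u _ => Finset.mem_coe.2 (hmem u)), card_range]
    have h2 : T.card * b ^ m < T.card * b ^ m := by
      calc T.card * b ^ m = ∑ z ∈ T, T.card * ((range (b ^ m)).filter
            (fun u => ((wd b m u).map φ).prod = z)).card := by
            rw [← Finset.mul_sum, h1]
        _ < ∑ _z ∈ T, b ^ m :=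
            Finset.sum_lt_sum_of_nonempty ⟨_, hmem 0⟩ fun z hz => hcon z hz
        _ = T.card * b ^ m := by rw [Finset.sum_const, smul_eq_mul]
    exact lt_irrefl _ h2
  refine ⟨(range (b ^ m)).filter (fun u => ((wd b m u).map φ).prod = z),
    Finset.filter_subset _ _, hz, ?_⟩
  intro u hu u' hu'
  exact (Finset.mem_filter.1 hu).2.trans (Finset.mem_filter.1 hu').2.symm

/-- Comparison of exponents. -/
theorem large {l : ℝ} (hl : 0 < l) {c : ℝ} (hc : c < 1) (K : ℝ) (hK : 0 < K) :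
    ∃ c' : ℝ, 0 < c' ∧ c' < 1 ∧ ∃ n₀ : ℕ, ∀ n : ℕ, n₀ ≤ n →
      K * Real.exp ((n : ℝ) ^ c) ≤ Real.exp ((n * l) ^ c') ∧ (n * l) ^ c' ≤ n * l := by
  set c₁ : ℝ := max c (1 / 2) with hc₁
  have h1 : c₁ < 1 := max_lt hc (by norm_num)
  have h0 : 0 < c₁ := lt_of_lt_of_le (by norm_num) (le_max_right c (1 / 2))
  set c' : ℝ := (c₁ + 1) / 2 with hc'
  have hc'1 : c' < 1 := by linarith
  have hc'0 : 0 < c' := by linarith
  have hd : 0 < c' - c₁ := by linarith
  have t1 : Filter.Tendsto (fun n : ℕ => (n : ℝ) ^ (c' - c₁)) Filter.atTop Filter.atTop :=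
    (tendsto_rpow_atTop hd).comp tendsto_natCast_atTop_atTop
  have t2 : Filter.Tendsto (fun n : ℕ => (n : ℝ) ^ c₁) Filter.atTop Filter.atTop :=
    (tendsto_rpow_atTop h0).comp tendsto_natCast_atTop_atTop
  have e1 := t1.eventually_ge_atTop (2 / l ^ c')
  have e2 := t2.eventually_ge_atTop (Real.log K)
  have e3 := tendsto_natCast_atTop_atTop.eventually_ge_atTop (max 1 (1 / l))
  obtain ⟨n₀, hn₀⟩ := Filter.eventually_atTop.1 (e1.and (e2.and e3))
  refine ⟨c', hc'0, hc'1, n₀, fun n hn => ?_⟩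
  obtain ⟨a1, a2, a3⟩ := hn₀ n hn
  have hn1 : (1 : ℝ) ≤ n := (le_max_left _ _).trans a3
  have hn2 : 1 / l ≤ n := (le_max_right _ _).trans a3
  have hnl : 1 ≤ n * l := by
    rw [div_le_iff₀ hl] at hn2
    exact hn2
  have hn0 : (0 : ℝ) < n := by linarith
  constructor
  · have b1 : (n : ℝ) ^ c ≤ (n : ℝ) ^ c₁ :=
      Real.rpow_le_rpow_of_exponent_le hn1 (le_max_left _ _)
    have b2 : 2 * (n : ℝ) ^ c₁ ≤ (n * l) ^ c' := by
      have hlc : 0 < l ^ c' := Real.rpow_pos_of_pos hl _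
      rw [div_le_iff₀ hlc] at a1
      calc 2 * (n : ℝ) ^ c₁ ≤ ((n : ℝ) ^ (c' - c₁) * l ^ c') * (n : ℝ) ^ c₁ :=
            mul_le_mul_of_nonneg_right a1 (Real.rpow_nonneg hn0.le _)
        _ = ((n : ℝ) ^ (c' - c₁) * (n : ℝ) ^ c₁) * l ^ c' := by ring
        _ = (n * l) ^ c' := by
            rw [← Real.rpow_add hn0, sub_add_cancel, Real.mul_rpow hn0.le hl.le]
    calc K * Real.exp ((n : ℝ) ^ c) ≤ K * Real.exp ((n : ℝ) ^ c₁) :=
          mul_le_mul_of_nonneg_left (Real.exp_le_exp.2 b1) hK.le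
      _ = Real.exp (Real.log K + (n : ℝ) ^ c₁) := by rw [Real.exp_add, Real.exp_log hK]
      _ ≤ Real.exp ((n * l) ^ c') := Real.exp_le_exp.2 (by linarith)
  · calc (n * l) ^ c' ≤ (n * l) ^ (1 : ℝ) := Real.rpow_le_rpow_of_exponent_le hnl hc'1.le
      _ = n * l := Real.rpow_one _

/-- **Relative density for congruences with few classes.** `g m` bounds the number of classes of
words of length `m`; the constants depend only on `b`, `k`, `c`, `K`, `P`, `ε`. -/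
theorem relative_growth {b : ℕ} (hb : 2 ≤ b) {k : ℕ} (hk : 1 ≤ k) {c K : ℝ} (hc : c < 1)
    (P : Set ℕ → Prop) (hPm : ∀ A A' : Set ℕ, A' ⊆ A → P A → P A')
    (hPs : ∀ A : Set ℕ, P A → ∀ m d : ℕ, k ∣ m → P {y | d + b ^ m * y ∈ A})
    (hPd : ∀ c : ℝ, c < 1 → ∀ ε : ℝ, 0 < ε → ∃ N₀ : ℕ, ∀ N : ℕ, N₀ ≤ N → ∀ F : Finset ℕ,
      F ⊆ range N → P (F : Set ℕ) → (F.card : ℝ) * Real.exp ((Real.log N) ^ c) ≤ ε * N)
    {ε : ℝ} (hε : 0 < ε) :
    ∃ θ C : ℝ, 0 < θ ∧ θ < 1 ∧ 0 < C ∧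
      ∀ {r : List ℕ → List ℕ → Prop} (_hr : Cong r) (g : ℕ → ℝ)
        (_hg : ∀ m : ℕ, 1 ≤ m → g m ≤ K * Real.exp ((m : ℝ) ^ c))
        (_hcl : ∀ m : ℕ, ∃ F : Finset ℕ, F ⊆ range (b ^ m) ∧
          ((b ^ m : ℕ) : ℝ) ≤ g (m + 1) * F.card ∧
          ∀ u ∈ F, ∀ u' ∈ F, r (wd b m u) (wd b m u')),
        ∀ A : Set ℕ,
          (∀ m n : ℕ, r (Nat.digits b m) (Nat.digits b n) → (m ∈ A ↔ n ∈ A)) →
          ∀ A' : Set ℕ, A' ⊆ A → P A' → ∀ N : ℕ, 1 ≤ N →
            ((A' ∩ Set.Icc 1 N).ncard : ℝ) ≤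
              ε * ((A ∩ Set.Icc 1 N).ncard : ℝ) + C * (N : ℝ) ^ θ := by
  have hb1 : (2 : ℝ) ≤ (b : ℝ) := by exact_mod_cast hb
  have hlb : 0 < Real.log b := Real.log_pos (by linarith)
  obtain ⟨c', -, hc'1, n₀, hn₀⟩ := large hlb hc (2 * b * (|K| + 1)) (by positivity)
  obtain ⟨N₀, hN₀⟩ := hPd c' hc'1 ε hε
  obtain ⟨m, hkm, hm1, hm2, hm3⟩ : ∃ m : ℕ, k ∣ m + 1 ∧ N₀ ≤ m ∧ n₀ ≤ m ∧ 1 ≤ m := by
    have h1 : 1 ≤ k * (N₀ + n₀ + 2) := Nat.one_le_iff_ne_zero.2 (by positivity)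
    have h2 : N₀ + n₀ + 2 ≤ k * (N₀ + n₀ + 2) := Nat.le_mul_of_pos_left _ hk
    refine ⟨k * (N₀ + n₀ + 2) - 1, ?_, by omega, by omega, by omega⟩
    have : k * (N₀ + n₀ + 2) - 1 + 1 = k * (N₀ + n₀ + 2) := by omega
    rw [this]
    exact Dvd.intro _ rfl
  obtain ⟨θ, C, hθ0, hθ1, hC, hcore⟩ := relative_core hb hm3 hε
  refine ⟨θ, C, hθ0, hθ1, hC, ?_⟩
  intro r hr g hg hcl
  obtain ⟨F, hFr, hFc, hFs⟩ := hcl m
  obtain ⟨hX1, hX2⟩ := hn₀ (m + 1) (by omega)
  set X : ℝ := Real.exp ((((m + 1 : ℕ) : ℝ) * Real.log b) ^ c') with hX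
  have hX0 : 0 < X := Real.exp_pos _
  have hbm0 : (0 : ℝ) < (b : ℝ) ^ m := by positivity
  have hXb : X ≤ b * (b : ℝ) ^ m := by
    calc X ≤ Real.exp (((m + 1 : ℕ) : ℝ) * Real.log b) := Real.exp_le_exp.2 hX2
      _ = (b : ℝ) ^ (m + 1) := by
          rw [mul_comm, Real.exp_mul, Real.exp_log (by linarith), Real.rpow_natCast]
      _ = b * (b : ℝ) ^ m := by ring
  have hg1 : g (m + 1) ≤ (|K| + 1) * Real.exp (((m + 1 : ℕ) : ℝ) ^ c) :=
    (hg (m + 1) (by omega)).trans (mul_le_mul_of_nonneg_right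
      (by linarith [le_abs_self K]) (Real.exp_pos _).le)
  have hgX : g (m + 1) * (2 * b) ≤ X := by
    calc g (m + 1) * (2 * b) ≤ ((|K| + 1) * Real.exp (((m + 1 : ℕ) : ℝ) ^ c)) * (2 * b) :=
          mul_le_mul_of_nonneg_right hg1 (by positivity)
      _ = 2 * b * (|K| + 1) * Real.exp (((m + 1 : ℕ) : ℝ) ^ c) := by ring
      _ ≤ X := hX1
  push_cast at hFc
  have hF0 : (0 : ℝ) ≤ F.card := Nat.cast_nonneg _
  have hmain : 2 * b * (b : ℝ) ^ m ≤ X * F.card := by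
    calc 2 * b * (b : ℝ) ^ m ≤ 2 * b * (g (m + 1) * F.card) :=
          mul_le_mul_of_nonneg_left hFc (by positivity)
      _ = (g (m + 1) * (2 * b)) * F.card := by ring
      _ ≤ X * F.card := mul_le_mul_of_nonneg_right hgX hF0
  have hF2 : 2 ≤ F.card := by
    have h1 : 2 * b * (b : ℝ) ^ m ≤ b * (b : ℝ) ^ m * F.card :=
      hmain.trans (mul_le_mul_of_nonneg_right hXb hF0)
    have h2 : (0 : ℝ) < b * (b : ℝ) ^ m := by positivity
    have h3 : (2 : ℝ) ≤ F.card := by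
      refine le_of_mul_le_mul_left ?_ h2
      linarith
    exact_mod_cast h3
  refine hcore hr P hPm hPs hkm hFr hF2 hFs ?_
  intro G hG hGP
  have hBN : N₀ ≤ b ^ (m + 1) := by
    have : m + 1 < b ^ (m + 1) := Nat.lt_pow_self (by omega)
    omega
  have h1 := hN₀ (b ^ (m + 1)) hBN G hG hGP
  have hlog : Real.log ((b ^ (m + 1) : ℕ) : ℝ) = ((m + 1 : ℕ) : ℝ) * Real.log b := by
    push_cast
    rw [Real.log_pow]
    push_cast
    ring
  rw [hlog, ← hX] at h1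
  push_cast at h1
  refine le_of_mul_le_mul_left ?_ hX0
  calc X * (G.card : ℝ) = G.card * X := mul_comm _ _
    _ ≤ ε * (b : ℝ) ^ (m + 1) := h1
    _ = ε / 2 * (2 * b * (b : ℝ) ^ m) := by ring
    _ ≤ ε / 2 * (X * F.card) := mul_le_mul_of_nonneg_left hmain (by positivity)
    _ ≤ X * (ε * F.card) := by
        have : 0 ≤ X * F.card * ε := by positivity
        nlinarith

end Vale.Agent.P042.H499
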