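import Vale.Agent.P042.R2.H499.Core
import Vale.Agent.P042.R2.H499.Classes
import Vale.Agent.P057.R3.H664.ShiftIff
import Vale.Agent.P057.R3.H567.Aut

set_option autoImplicit false

/-!
P042, relative density inside digit statistics sets: assembly for any translation invariant family
of sets which is closed under the maps `y ↦ d + b ^ m * y`, `k ∣ m`, and whose members have density
smaller than every power of the logarithm.
-/

namespace Vale.Agent.P042.H499

open Finset Vale.Agent.P057.H380 Vale.Agent.P057.R3.H664 Vale.Agent.P057.H567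

/-- The numbers whose base `b` digits, read from the last digit by the first automaton and from the
first digit by the second one, lead to a pair of (state, output) which lies in `S`. -/
def statSet {Q M Q' M' : Type} [AddCommMonoid M] [AddCommMonoid M'] (b : ℕ) (δ : Q → ℕ → Q × M)
    (δ' : Q' → ℕ → Q' × M') (q : Q) (q' : Q') (S : Set ((Q × M) × (Q' × M'))) : Set ℕ :=
  {n | (run δ q (Nat.digits b n), run δ' q' (Nat.digits b n).reverse) ∈ S}

/-- Two words act in the same way on both automata. -/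
def same {Q M Q' M' : Type} [AddCommMonoid M] [AddCommMonoid M'] (δ : Q → ℕ → Q × M)
    (δ' : Q' → ℕ → Q' × M') (u v : List ℕ) : Prop :=
  (∀ q, run δ q u = run δ q v) ∧ (∀ q, run δ' q u.reverse = run δ' q v.reverse)

theorem same_cong {Q M Q' M' : Type} [AddCommMonoid M] [AddCommMonoid M'] (δ : Q → ℕ → Q × M)
    (δ' : Q' → ℕ → Q' × M') : Cong (same δ δ') where
  eqv := ⟨fun _ => ⟨fun _ => rfl, fun _ => rfl⟩,
    fun h => ⟨fun q => (h.1 q).symm, fun q => (h.2 q).symm⟩,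
    fun h h' => ⟨fun q => (h.1 q).trans (h'.1 q), fun q => (h.2 q).trans (h'.2 q)⟩⟩
  app := by
    intro u u' v v' hu hv
    refine ⟨fun q => ?_, fun q => ?_⟩
    · rw [run_append, run_append, hu.1 q, hv.1]
    · rw [List.reverse_append, List.reverse_append, run_append, run_append, hv.2 q, hu.2]

theorem mem_of_same {Q M Q' M' : Type} [AddCommMonoid M] [AddCommMonoid M'] {b : ℕ}
    {δ : Q → ℕ → Q × M} {δ' : Q' → ℕ → Q' × M'} {q : Q} {q' : Q'}
    {S : Set ((Q × M) × (Q' × M'))} (m n : ℕ) (h : same δ δ' (Nat.digits b m) (Nat.digits b n)) :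
    (m ∈ statSet b δ δ' q q' S ↔ n ∈ statSet b δ δ' q q' S) := by
  unfold statSet
  rw [Set.mem_ofPred_eq, Set.mem_ofPred_eq, h.1 q, h.2 q']

/-- Windows of one class can be exchanged. -/
theorem exchange {Q M Q' M' : Type} [AddCommMonoid M] [AddCommMonoid M'] {b : ℕ} (hb : 2 ≤ b)
    {δ : Q → ℕ → Q × M} {δ' : Q' → ℕ → Q' × M'} {q : Q} {q' : Q'}
    {S : Set ((Q × M) × (Q' × M'))} {m u u' : ℕ} (hu : u < b ^ m) (hu' : u' < b ^ m)
    (huu : u ≤ u') (hs : same δ δ' (wd b m u) (wd b m u')) {n i : ℕ}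
    (hn : n / (b ^ (m + 1)) ^ i % b ^ (m + 1) = u + b ^ m) :
    (n ∈ statSet b δ δ' q q' S ↔
      n + (u' + b ^ m - (u + b ^ m)) * (b ^ (m + 1)) ^ i ∈ statSet b δ δ' q q' S) := by
  have h := shift_iff hb (same_cong δ δ') (A := statSet b δ δ' q q' S)
    (fun m n hmn => mem_of_same m n hmn) (k := 2)
    (w := fun j => if j = 0 then wd b m u else wd b m u') (D := u' - u) (m := m + 1) (n := n)
    (i := i) ?_ ?_ 1 (by norm_num)
  · have e : u' + b ^ m - (u + b ^ m) = u' - u := by omega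
    rw [e]
    simpa using h
  · intro j hj
    rcases Nat.eq_zero_or_pos j with h0 | h0
    · subst h0
      simp only [if_true]
      refine ⟨wd_dig hb m u, wd_length b m u, wd_last b m u, (same_cong δ δ').eqv.refl _, ?_⟩
      simp
    · obtain rfl : j = 1 := by omega
      simp only [one_ne_zero, if_false, if_true]
      refine ⟨wd_dig hb m u', wd_length b m u', wd_last b m u', hs, ?_⟩
      rw [wd_val hb hu', wd_val hb hu]
      omega
  · simp only [if_true]
    rw [hn, wd_val hb hu]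

/-- **Relative density inside digit statistics sets.** -/
theorem relative {Q M Q' M' : Type} [AddCommMonoid M] [AddCommMonoid M'] [Finite Q] [Finite Q']
    {b : ℕ} (hb : 2 ≤ b) {k : ℕ} (hk : 1 ≤ k) (δ : Q → ℕ → Q × M) (δ' : Q' → ℕ → Q' × M')
    (q : Q) (q' : Q') (P : Set ℕ → Prop) (hPm : ∀ A A' : Set ℕ, A' ⊆ A → P A → P A')
    (hPs : ∀ A : Set ℕ, P A → ∀ m d : ℕ, k ∣ m → P {y | d + b ^ m * y ∈ A})
    (hPd : ∀ (E : ℕ) (ε : ℝ), 0 < ε → ∃ N₀ : ℕ, ∀ N : ℕ, N₀ ≤ N → ∀ F : Finset ℕ,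
      F ⊆ range N → P (F : Set ℕ) → (F.card : ℝ) * (Real.log N) ^ E ≤ ε * N)
    {ε : ℝ} (hε : 0 < ε) :
    ∃ θ C : ℝ, 0 < θ ∧ θ < 1 ∧ 0 < C ∧ ∀ S : Set ((Q × M) × (Q' × M')),
      ∀ A' : Set ℕ, A' ⊆ statSet b δ δ' q q' S → P A' → ∀ N : ℕ, 1 ≤ N →
        ((A' ∩ Set.Icc 1 N).ncard : ℝ) ≤
          ε * ((statSet b δ δ' q q' S ∩ Set.Icc 1 N).ncard : ℝ) + C * (N : ℝ) ^ θ := by
  classical
  have hb1 : (2 : ℝ) ≤ (b : ℝ) := by exact_mod_cast hb
  have hlb : 0 < Real.log b := Real.log_pos (by linarith)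
  obtain ⟨c, E, hcE'⟩ := exists_class (Q := Q) (Q' := Q') hb
  have hcE := hcE' δ δ'
  have hc : 0 < c := by
    obtain ⟨F, -, h2, -⟩ := hcE 0
    rcases Nat.eq_zero_or_pos c with h | h
    · rw [h, zero_mul, zero_mul] at h2
      have : 0 < b ^ 0 := by positivity
      omega
    · exact h
  have hc0 : (0 : ℝ) < c := by exact_mod_cast hc
  -- large `m`
  obtain ⟨N₀, hN₀⟩ := hPd E (ε * (Real.log b) ^ E / (b * c * 2 ^ E)) (by positivity)
  have hlim := tendsto_pow_const_div_const_pow_of_one_lt E (r := (b : ℝ)) (by linarith)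
  have hev : ∀ᶠ n : ℕ in Filter.atTop, (n : ℝ) ^ E / (b : ℝ) ^ n < 1 / (c * b ^ 2) :=
    hlim.eventually_lt_const (by positivity)
  obtain ⟨n₁, hn₁⟩ := Filter.eventually_atTop.1 hev
  obtain ⟨m, hkm, hm1, hm2⟩ : ∃ m : ℕ, k ∣ m + 1 ∧ N₀ ≤ m ∧ n₁ ≤ m := by
    refine ⟨k * (N₀ + n₁ + 1) - 1, ?_, ?_, ?_⟩
    · have : k * (N₀ + n₁ + 1) - 1 + 1 = k * (N₀ + n₁ + 1) := by
        have : 1 ≤ k * (N₀ + n₁ + 1) := Nat.one_le_iff_ne_zero.2 (by positivity)
        omega
      rw [this]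
      exact Dvd.intro _ rfl
    · have : N₀ + n₁ + 1 ≤ k * (N₀ + n₁ + 1) := Nat.le_mul_of_pos_left _ hk
      omega
    · have : N₀ + n₁ + 1 ≤ k * (N₀ + n₁ + 1) := Nat.le_mul_of_pos_left _ hk
      omega
  obtain ⟨F, hFr, hFc, hFs⟩ := hcE m
  set B := b ^ (m + 1) with hBdef
  have hbm : 0 < b ^ m := by positivity
  have hBm : 2 * b ^ m ≤ B := by
    rw [hBdef, pow_succ]
    calc 2 * b ^ m ≤ b * b ^ m := Nat.mul_le_mul_right _ hb
      _ = b ^ m * b := mul_comm _ _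
  -- `F` has two elements
  have hF2 : 2 ≤ F.card := by
    by_contra hcon
    have h1 : F.card ≤ 1 := by omega
    have h2 : b ^ m ≤ c * (m + 2) ^ E := by
      calc b ^ m ≤ c * (m + 2) ^ E * F.card := hFc
        _ ≤ c * (m + 2) ^ E * 1 := Nat.mul_le_mul_left _ h1
        _ = _ := mul_one _
    have h3 := hn₁ (m + 2) (by omega)
    rw [div_lt_div_iff₀ (by positivity) (by positivity)] at h3
    have h4 : ((b ^ m : ℕ) : ℝ) ≤ ((c * (m + 2) ^ E : ℕ) : ℝ) := by exact_mod_cast h2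
    push_cast at h3 h4
    have h5 : (b : ℝ) ^ (m + 2) = (b : ℝ) ^ m * (b : ℝ) ^ 2 := pow_add _ _ _
    rw [h5, one_mul] at h3
    have h6 : 0 < (b : ℝ) ^ 2 := by positivity
    nlinarith
  have hFpos : (0 : ℝ) < F.card := by
    have : 0 < F.card := by omega
    exact_mod_cast this
  have hB3 : 3 ≤ B := by
    have h1 := Finset.card_le_card hFr
    rw [card_range] at h1
    omega
  -- density of the members of `P`
  have hden : ∀ G : Finset ℕ, G ⊆ range B → P (G : Set ℕ) → (G.card : ℝ) ≤ ε * F.card := by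
    intro G hG hGP
    have hBN : N₀ ≤ B := by
      have : m + 1 < b ^ (m + 1) := Nat.lt_pow_self (by omega)
      omega
    have h1 := hN₀ B hBN G hG hGP
    have hlog : Real.log (B : ℝ) = (m + 1 : ℕ) * Real.log b := by
      rw [hBdef]
      push_cast
      rw [Real.log_pow]
      push_cast
      ring
    rw [hlog, mul_pow] at h1
    have h2 : ((b ^ m : ℕ) : ℝ) ≤ ((c * (m + 2) ^ E * F.card : ℕ) : ℝ) := by exact_mod_cast hFc
    push_cast at h2
    have h3 : ((m : ℝ) + 2) ^ E ≤ 2 ^ E * ((m + 1 : ℕ) : ℝ) ^ E := by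
      rw [← mul_pow]
      refine pow_le_pow_left₀ (by positivity) ?_ E
      push_cast
      have : (0 : ℝ) ≤ m := Nat.cast_nonneg m
      linarith
    have h4 : (B : ℝ) = b * (b : ℝ) ^ m := by
      rw [hBdef]
      push_cast
      ring
    have hX : 0 < (((m + 1 : ℕ) : ℝ)) ^ E * (Real.log b) ^ E := by positivity
    refine le_of_mul_le_mul_right ?_ hX
    calc (G.card : ℝ) * ((((m + 1 : ℕ) : ℝ)) ^ E * (Real.log b) ^ E)
        ≤ ε * (Real.log b) ^ E / (b * c * 2 ^ E) * B := h1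
      _ = ε * (Real.log b) ^ E / (c * 2 ^ E) * (b : ℝ) ^ m := by
          rw [h4]
          field_simp
      _ ≤ ε * (Real.log b) ^ E / (c * 2 ^ E) * (c * ((m : ℝ) + 2) ^ E * F.card) :=
          mul_le_mul_of_nonneg_left h2 (by positivity)
      _ = ε * (Real.log b) ^ E / 2 ^ E * F.card * ((m : ℝ) + 2) ^ E := by
          field_simp
      _ ≤ ε * (Real.log b) ^ E / 2 ^ E * F.card * (2 ^ E * ((m + 1 : ℕ) : ℝ) ^ E) :=
          mul_le_mul_of_nonneg_left h3 (by positivity)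
      _ = ε * F.card * ((((m + 1 : ℕ) : ℝ)) ^ E * (Real.log b) ^ E) := by
          field_simp
  -- the windows
  set V : Finset ℕ := F.image (fun u => u + b ^ m) with hVdef
  have hVcard : V.card = F.card :=
    Finset.card_image_of_injective _ (add_left_injective (b ^ m))
  have hVr : V ⊆ range B := by
    intro v hv
    obtain ⟨u, hu, rfl⟩ := Finset.mem_image.1 hv
    have h1 := mem_range.1 (hFr hu)
    rw [mem_range]
    omega
  obtain ⟨θ, hθ0, hθ1, hθ⟩ := to_rpow hB3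
  refine ⟨θ, ε + 2 * B * B, hθ0, hθ1, by positivity, ?_⟩
  intro S A' hsub hPA' N hN
  obtain ⟨T, hT1, hT2⟩ := hθ N hN
  set ρ : ℕ := ⌊ε * F.card⌋₊ with hρdef
  have hρle : (ρ : ℝ) ≤ ε * F.card := Nat.floor_le (by positivity)
  have key := vpart hVr (by omega) (ρ := ρ) P
    (fun A hA d _ => hPs A hA (m + 1) d hkm)
    (by
      intro A hA y G hG hGA
      refine Nat.le_floor ?_
      refine hden G (hG.trans hVr) ?_
      refine hPm {v | B * y + b ^ 0 * v ∈ A} (G : Set ℕ) ?_ (hPs A hA 0 (B * y) (dvd_zero k))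
      intro v hv
      have := hGA v (Finset.mem_coe.1 hv)
      rw [Set.mem_ofPred_eq, pow_zero, one_mul, add_comm]
      exact this) T (statSet b δ δ' q q' S)
    (by
      intro n i v hv v' hv' hvv hn
      obtain ⟨u, hu, rfl⟩ := Finset.mem_image.1 hv
      obtain ⟨u', hu', rfl⟩ := Finset.mem_image.1 hv'
      exact exchange hb (mem_range.1 (hFr hu)) (mem_range.1 (hFr hu')) (by omega)
        (hFs u hu u' hu') hn) A' hsub hPA' (N + 1) hT1
  have h1 := ncard_le_cnt A' N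
  have h2 := cnt_le_ncard (statSet b δ δ' q q' S) N
  rw [hVcard] at key
  have h3 : (F.card : ℝ) * (cnt A' (N + 1) : ℝ) ≤
      ρ * (cnt (statSet b δ δ' q q' S) (N + 1) : ℝ) +
        2 * (F.card : ℝ) ^ 2 * ((B - 1 : ℕ) : ℝ) ^ T := by
    exact_mod_cast key
  have h1' : ((A' ∩ Set.Icc 1 N).ncard : ℝ) ≤ cnt A' (N + 1) := by exact_mod_cast h1
  have h2' : (cnt (statSet b δ δ' q q' S) (N + 1) : ℝ) ≤
      (statSet b δ δ' q q' S ∩ Set.Icc 1 N).ncard + 1 := by exact_mod_cast h2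
  have hFB : (F.card : ℝ) ≤ B := by
    have := Finset.card_le_card hVr
    rw [hVcard, card_range] at this
    exact_mod_cast this
  have hN1 : (1 : ℝ) ≤ (N : ℝ) ^ θ := Real.one_le_rpow (by exact_mod_cast hN) hθ0.le
  have h4 : (cnt A' (N + 1) : ℝ) ≤ ε * ((statSet b δ δ' q q' S ∩ Set.Icc 1 N).ncard + 1) +
      2 * (F.card : ℝ) * ((B - 1 : ℕ) : ℝ) ^ T := by
    refine le_of_mul_le_mul_left ?_ hFpos
    calc (F.card : ℝ) * (cnt A' (N + 1) : ℝ)
        ≤ ρ * (cnt (statSet b δ δ' q q' S) (N + 1) : ℝ) +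
          2 * (F.card : ℝ) ^ 2 * ((B - 1 : ℕ) : ℝ) ^ T := h3
      _ ≤ (ε * F.card) * ((statSet b δ δ' q q' S ∩ Set.Icc 1 N).ncard + 1) +
          2 * (F.card : ℝ) ^ 2 * ((B - 1 : ℕ) : ℝ) ^ T := by
          gcongr
      _ = _ := by ring
  have h5 : 2 * (F.card : ℝ) * ((B - 1 : ℕ) : ℝ) ^ T ≤ 2 * B * (B * (N : ℝ) ^ θ) := by
    gcongr
  calc ((A' ∩ Set.Icc 1 N).ncard : ℝ) ≤ _ := h1'
    _ ≤ _ := h4
    _ ≤ ε * ((statSet b δ δ' q q' S ∩ Set.Icc 1 N).ncard + 1) + 2 * B * (B * (N : ℝ) ^ θ) := by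
        linarith
    _ ≤ ε * ((statSet b δ δ' q q' S ∩ Set.Icc 1 N).ncard : ℝ) +
        (ε + 2 * B * B) * (N : ℝ) ^ θ := by
        nlinarith

end Vale.Agent.P042.H499
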