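import Vale.Agent.P042.R2.H499.Growth
import Vale.Agent.P042.R2.H499.Rel
import Vale.Agent.P042.R2.H463.Base
import Vale.Agent.P042.UU.Wire

set_option autoImplicit false

/-!
P042: relative density of sets without differences `a n ^ k` inside sets defined by digits.
-/

namespace Vale.Agent.P042.H499

open Finset Polynomial Vale.Agent.P042 Vale.Agent.P057.H380 Vale.Agent.P057.R3.H664

/-- No two elements differ by `a * n ^ k` with `n ≥ 1`. -/
def PowerFree (a k : ℕ) (A : Set ℕ) : Prop := ∀ x ∈ A, ∀ n : ℕ, 1 ≤ n → x + a * n ^ k ∉ A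

theorem PowerFree.mono {a k : ℕ} {A A' : Set ℕ} (h : A' ⊆ A) (hA : PowerFree a k A) :
    PowerFree a k A' :=
  fun x hx n hn hx' => hA x (h hx) n hn (h hx')

theorem PowerFree.scale {a k b : ℕ} (hb : 1 ≤ b) {A : Set ℕ} (hA : PowerFree a k A) (m d : ℕ)
    (hkm : k ∣ m) : PowerFree a k {y | d + b ^ m * y ∈ A} := by
  obtain ⟨t, rfl⟩ := hkm
  intro x hx n hn hx'
  rw [Set.mem_ofPred_eq] at hx hx'
  refine hA _ hx (b ^ t * n) (Nat.one_le_iff_ne_zero.2 (by positivity)) ?_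
  have e : d + b ^ (k * t) * x + a * (b ^ t * n) ^ k = d + b ^ (k * t) * (x + a * n ^ k) := by
    rw [mul_pow, ← pow_mul, mul_comm t k]
    ring
  rw [e]
  exact hx'

theorem card_le_rMax'' {a k : ℕ} {N : ℕ} {F : Finset ℕ} (hF : F ⊆ range N)
    (hA : PowerFree a k (F : Set ℕ)) :
    F.card ≤ rMax (C (a : ℤ) * X ^ k : ℤ[X]) N := by
  classical
  have h1 : (F.image (fun n : ℕ => (n : ℤ))).card = F.card :=
    Finset.card_image_of_injective _ Nat.cast_injective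
  rw [← h1]
  refine H463.card_le_rMax' ?_ N ?_
  · rw [H463.diffFree_iff]
    intro x hx y hy n hn he
    obtain ⟨x', hx', rfl⟩ := Finset.mem_image.1 hx
    obtain ⟨y', hy', rfl⟩ := Finset.mem_image.1 hy
    exfalso
    rw [H463.eval_mono] at he
    have h2 : x' = y' + a * n ^ k := by
      have : (x' : ℤ) = ((y' + a * n ^ k : ℕ) : ℤ) := by
        push_cast
        linarith
      exact_mod_cast this
    exact hA y' (Finset.mem_coe.2 hy') n hn (h2 ▸ Finset.mem_coe.2 hx')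
  · intro x hx
    obtain ⟨x', hx', rfl⟩ := Finset.mem_image.1 hx
    have := mem_range.1 (hF hx')
    constructor
    · exact Int.natCast_nonneg _
    · exact_mod_cast this

/-- Comparison of exponents, real variable. -/
theorem large_exp {c : ℝ} (hc : c < 1) :
    ∃ c' : ℝ, c' < 1 ∧ ∀ K : ℝ, 0 < K → ∃ t₀ : ℝ, ∀ t : ℝ, t₀ ≤ t →
      K * Real.exp (t ^ c) ≤ Real.exp (t ^ c') := by
  set c₁ : ℝ := max c (1 / 2) with hc₁
  have h1 : c₁ < 1 := max_lt hc (by norm_num)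
  have h0 : 0 < c₁ := lt_of_lt_of_le (by norm_num) (le_max_right c (1 / 2))
  set c' : ℝ := (c₁ + 1) / 2 with hc'
  have hc'1 : c' < 1 := by linarith
  have hd : 0 < c' - c₁ := by linarith
  refine ⟨c', hc'1, fun K hK => ?_⟩
  have e1 := (tendsto_rpow_atTop hd).eventually_ge_atTop 2
  have e2 := (tendsto_rpow_atTop h0).eventually_ge_atTop (Real.log K)
  have e3 := Filter.eventually_ge_atTop (1 : ℝ)
  obtain ⟨t₀, ht₀⟩ := Filter.eventually_atTop.1 (e1.and (e2.and e3))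
  refine ⟨t₀, fun t ht => ?_⟩
  obtain ⟨a1, a2, a3⟩ := ht₀ t ht
  have hn0 : (0 : ℝ) < t := by linarith
  have b1 : t ^ c ≤ t ^ c₁ := Real.rpow_le_rpow_of_exponent_le a3 (le_max_left _ _)
  have b2 : 2 * t ^ c₁ ≤ t ^ c' := by
    calc 2 * t ^ c₁ ≤ t ^ (c' - c₁) * t ^ c₁ :=
          mul_le_mul_of_nonneg_right a1 (Real.rpow_nonneg hn0.le _)
      _ = t ^ c' := by rw [← Real.rpow_add hn0, sub_add_cancel]
  calc K * Real.exp (t ^ c) ≤ K * Real.exp (t ^ c₁) :=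
        mul_le_mul_of_nonneg_left (Real.exp_le_exp.2 b1) hK.le
    _ = Real.exp (Real.log K + t ^ c₁) := by rw [Real.exp_add, Real.exp_log hK]
    _ ≤ Real.exp (t ^ c') := Real.exp_le_exp.2 (by linarith)

theorem densityP {a k : ℕ} (ha : 1 ≤ a) (hk : 2 ≤ k) (c : ℝ) (hc : c < 1) (ε : ℝ) (hε : 0 < ε) :
    ∃ N₀ : ℕ, ∀ N : ℕ, N₀ ≤ N → ∀ F : Finset ℕ,
      F ⊆ range N → PowerFree a k (F : Set ℕ) →
        (F.card : ℝ) * Real.exp ((Real.log N) ^ c) ≤ ε * N := by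
  have ha0 : (a : ℤ) ≠ 0 := by
    have : a ≠ 0 := by omega
    exact_mod_cast this
  have hdeg : (C (a : ℤ) * X ^ k : ℤ[X]).natDegree = k := natDegree_C_mul_X_pow k (a : ℤ) ha0
  have hlead : (C (a : ℤ) * X ^ k : ℤ[X]).leadingCoeff = (a : ℤ) :=
    leadingCoeff_C_mul_X_pow (a : ℤ) k
  have hint : Intersective (C (a : ℤ) * X ^ k : ℤ[X]) := by
    intro r _
    refine ⟨0, ?_⟩
    have : (C (a : ℤ) * X ^ k : ℤ[X]).eval 0 = 0 := by
      simp [show k ≠ 0 by omega]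
    rw [this]
    exact dvd_zero _
  obtain ⟨c₁, hc₁, hK⟩ := large_exp hc
  obtain ⟨K, hK0, hr⟩ := UU.final5_holds (C (a : ℤ) * X ^ k : ℤ[X]) (by rw [hdeg]; exact hk)
    (by rw [hlead]; exact_mod_cast ha) hint c₁ hc₁
  obtain ⟨t₀, ht₀⟩ := hK (K / ε) (by positivity)
  have hev := (Real.tendsto_log_atTop.comp tendsto_natCast_atTop_atTop).eventually_ge_atTop t₀
  obtain ⟨N₀, hN₀⟩ := Filter.eventually_atTop.1 hev
  refine ⟨N₀ + 1, fun N hN F hF hA => ?_⟩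
  have h1 := ht₀ (Real.log N) (hN₀ N (by omega))
  have h2 := hr N (by omega)
  have h4 : (F.card : ℝ) ≤ rMax (C (a : ℤ) * X ^ k : ℤ[X]) N := by
    exact_mod_cast card_le_rMax'' hF hA
  have hN0 : (0 : ℝ) ≤ N := Nat.cast_nonneg N
  have h5 : Real.exp ((Real.log N) ^ c) ≤ ε / K * Real.exp ((Real.log N) ^ c₁) := by
    rw [div_mul_eq_mul_div, le_div_iff₀ hK0]
    rw [div_mul_eq_mul_div, div_le_iff₀ hε] at h1
    linarith
  calc (F.card : ℝ) * Real.exp ((Real.log N) ^ c)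
      ≤ (K * N * Real.exp (-(Real.log N) ^ c₁)) * (ε / K * Real.exp ((Real.log N) ^ c₁)) :=
        mul_le_mul (h4.trans h2) h5 (Real.exp_pos _).le (by positivity)
    _ = ε * N * (K / K) * (Real.exp (-(Real.log N) ^ c₁) * Real.exp ((Real.log N) ^ c₁)) := by
        ring
    _ = ε * N := by
        rw [← Real.exp_add, neg_add_cancel, Real.exp_zero, div_self hK0.ne']
        ring

/-- **Relative density inside sets defined by digits**, outputs in a monoid in which the words of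
length `m` have at most `K exp(m ^ c)` products, `c < 1`; the constants do not depend on the
monoid. -/
theorem monoid_relative {a k : ℕ} (ha : 1 ≤ a) (hk : 2 ≤ k) {b : ℕ}
    (hb : 2 ≤ b) {c : ℝ} (hc : c < 1) (K : ℝ) {ε : ℝ} (hε : 0 < ε) :
    ∃ θ C : ℝ, 0 < θ ∧ θ < 1 ∧ 0 < C ∧ ∀ (M : Type) [Monoid M] (φ : ℕ → M),
      (∀ m : ℕ, ((prods b φ m).ncard : ℝ) ≤ K * Real.exp ((m : ℝ) ^ c)) → ∀ S : Set M,
      ∀ A' : Set ℕ, A' ⊆ digitSet b φ S → PowerFree a k A' → ∀ N : ℕ, 1 ≤ N →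
        ((A' ∩ Set.Icc 1 N).ncard : ℝ) ≤
          ε * ((digitSet b φ S ∩ Set.Icc 1 N).ncard : ℝ) + C * (N : ℝ) ^ θ := by
  obtain ⟨θ, C, h0, h1, h2, h3⟩ := relative_growth hb (k := k) (by omega) (c := c) (K := K) hc
    (PowerFree a k) (fun _ _ h hA => hA.mono h) (fun _ hA m d hm => hA.scale (by omega) m d hm)
    (densityP ha hk) hε
  refine ⟨θ, C, h0, h1, h2, fun M _ φ hφ S A' hsub hA' N hN =>
    h3 (prod_cong φ) (fun m => ((prods b φ m).ncard : ℝ)) (fun m _ => hφ m) ?_ (digitSet b φ S) ?_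
      A' hsub hA' N hN⟩
  · intro m
    obtain ⟨F, hF1, hF2, hF3⟩ := exists_classM hb φ m
    refine ⟨F, hF1, ?_, hF3⟩
    exact_mod_cast hF2
  · intro m n hmn
    unfold digitSet
    rw [Set.mem_ofPred_eq, Set.mem_ofPred_eq, hmn]

theorem log_pow_le_exp (E : ℕ) : ∃ N₀ : ℕ, ∀ N : ℕ, N₀ ≤ N →
    (Real.log N) ^ E ≤ Real.exp ((Real.log N) ^ (1 / 2 : ℝ)) := by
  have h1 : Filter.Tendsto (fun N : ℕ => Real.log (N : ℝ)) Filter.atTop Filter.atTop :=
    Real.tendsto_log_atTop.comp tendsto_natCast_atTop_atTop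
  have h2 : Filter.Tendsto (fun N : ℕ => (Real.log (N : ℝ)) ^ (1 / 2 : ℝ)) Filter.atTop
      Filter.atTop := (tendsto_rpow_atTop (by norm_num)).comp h1
  have h3 := (Real.tendsto_exp_div_pow_atTop (2 * E)).comp h2
  have e1 := h3.eventually_ge_atTop 1
  have e2 := h2.eventually_gt_atTop 0
  have e3 := h1.eventually_ge_atTop 0
  obtain ⟨N₀, hN₀⟩ := Filter.eventually_atTop.1 (e1.and (e2.and e3))
  refine ⟨N₀, fun N hN => ?_⟩
  obtain ⟨a1, a2, a3⟩ := hN₀ N hN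
  have a1' : 1 ≤ Real.exp ((Real.log (N : ℝ)) ^ (1 / 2 : ℝ)) /
      ((Real.log (N : ℝ)) ^ (1 / 2 : ℝ)) ^ (2 * E) := a1
  rw [le_div_iff₀ (by positivity), one_mul] at a1'
  have e : ((Real.log (N : ℝ)) ^ (1 / 2 : ℝ)) ^ (2 * E) = (Real.log (N : ℝ)) ^ E := by
    rw [pow_mul, ← Real.rpow_natCast _ 2, ← Real.rpow_mul a3]
    norm_num
  rwa [e] at a1'

/-- **Relative density inside sets defined by two finite automata**, outputs in commutative
monoids. -/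
theorem automata_relative {Q M Q' M' : Type} [AddCommMonoid M] [AddCommMonoid M'] [Finite Q]
    [Finite Q'] {a k : ℕ} (ha : 1 ≤ a) (hk : 2 ≤ k) {b : ℕ} (hb : 2 ≤ b) (δ : Q → ℕ → Q × M)
    (δ' : Q' → ℕ → Q' × M') (q : Q) (q' : Q') {ε : ℝ} (hε : 0 < ε) :
    ∃ θ C : ℝ, 0 < θ ∧ θ < 1 ∧ 0 < C ∧ ∀ S : Set ((Q × M) × (Q' × M')),
      ∀ A' : Set ℕ, A' ⊆ statSet b δ δ' q q' S → PowerFree a k A' → ∀ N : ℕ, 1 ≤ N →
        ((A' ∩ Set.Icc 1 N).ncard : ℝ) ≤
          ε * ((statSet b δ δ' q q' S ∩ Set.Icc 1 N).ncard : ℝ) + C * (N : ℝ) ^ θ := by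
  refine relative hb (k := k) (by omega) δ δ' q q' (PowerFree a k) (fun _ _ h hA => hA.mono h)
    (fun _ hA m d hm => hA.scale (by omega) m d hm) ?_ hε
  intro E ε hε
  obtain ⟨N₀, h0⟩ := densityP ha hk (1 / 2) (by norm_num) ε hε
  obtain ⟨N₁, h1⟩ := log_pow_le_exp E
  refine ⟨max N₀ N₁, fun N hN F hF hA => ?_⟩
  refine le_trans ?_ (h0 N ((le_max_left _ _).trans hN) F hF hA)
  exact mul_le_mul_of_nonneg_left (h1 N ((le_max_right _ _).trans hN)) (Nat.cast_nonneg _)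

end Vale.Agent.P042.H499
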