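import Mathlib

set_option autoImplicit false

/-!
P042, relative density inside digit statistics sets: partition by the lowest window in `V`.
-/

namespace Vale.Agent.P042.H499

open Finset

open Classical in
/-- Number of elements of `A` below `N`. -/
noncomputable def cnt (A : Set ℕ) (N : ℕ) : ℕ := ((Finset.range N).filter (fun n => n ∈ A)).card

/-- The numbers `y` for which `d + B * y` lies in `A`. -/
def br (B d : ℕ) (A : Set ℕ) : Set ℕ := {y | d + B * y ∈ A}

theorem mem_br {B d : ℕ} {A : Set ℕ} {y : ℕ} : y ∈ br B d A ↔ d + B * y ∈ A := Iff.rfl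

theorem cnt_split {B : ℕ} (hB : 0 < B) (A : Set ℕ) (N : ℕ) :
    cnt A N = ∑ d ∈ range B, cnt (br B d A) ((N + B - 1 - d) / B) := by
  classical
  unfold cnt
  have h1 : ((range N).filter (fun n => n ∈ A)).card =
      ∑ d ∈ range B, (((range N).filter (fun n => n ∈ A)).filter (fun n => n % B = d)).card :=
    Finset.card_eq_sum_card_fiberwise (fun n _ => Finset.mem_coe.2
      (Finset.mem_range.2 (Nat.mod_lt _ hB)))
  rw [h1]
  refine Finset.sum_congr rfl fun d hd => ?_
  have hd' := mem_range.1 hd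
  refine (Finset.card_bij (fun y _ => d + B * y) ?_ ?_ ?_).symm
  · intro y hy
    rw [Finset.mem_filter, Finset.mem_range, mem_br] at hy
    rw [Finset.mem_filter, Finset.mem_filter, Finset.mem_range]
    obtain ⟨h2, h3⟩ := hy
    have h4 : (y + 1) * B ≤ N + B - 1 - d := by
      rwa [Nat.lt_iff_add_one_le, Nat.le_div_iff_mul_le hB] at h2
    have h5 : (y + 1) * B = B * y + B := by ring
    refine ⟨⟨by omega, h3⟩, ?_⟩
    rw [Nat.add_mul_mod_self_left, Nat.mod_eq_of_lt hd']
  · intro y _ y' _ h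
    have h6 : B * y = B * y' := by simpa using h
    exact Nat.eq_of_mul_eq_mul_left hB h6
  · intro n hn
    rw [Finset.mem_filter, Finset.mem_filter, Finset.mem_range] at hn
    obtain ⟨⟨h2, h3⟩, h4⟩ := hn
    have h5 : d + B * (n / B) = n := by
      have := Nat.mod_add_div n B
      rwa [h4] at this
    refine ⟨n / B, ?_, h5⟩
    rw [Finset.mem_filter, Finset.mem_range, mem_br]
    refine ⟨?_, by rw [h5]; exact h3⟩
    rw [Nat.lt_iff_add_one_le, Nat.le_div_iff_mul_le hB]
    have h6 : (n / B + 1) * B = B * (n / B) + B := by ring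
    omega

theorem cnt_mono {A : Set ℕ} {N M : ℕ} (h : N ≤ M) : cnt A N ≤ cnt A M := by
  classical
  unfold cnt
  exact Finset.card_le_card (Finset.filter_subset_filter _ (Finset.range_mono h))

theorem cnt_le (A : Set ℕ) (N : ℕ) : cnt A N ≤ N := by
  classical
  unfold cnt
  exact le_trans (Finset.card_filter_le _ _) (by rw [Finset.card_range])

theorem cnt_succ (A : Set ℕ) (N : ℕ) : cnt A (N + 1) ≤ cnt A N + 1 := by
  classical
  unfold cnt
  rw [Finset.range_add_one, Finset.filter_insert]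
  split_ifs
  · exact Finset.card_insert_le _ _
  · omega

theorem cnt_le_add_one {A : Set ℕ} {N M : ℕ} (h : N ≤ M + 1) : cnt A N ≤ cnt A M + 1 :=
  le_trans (cnt_mono h) (cnt_succ A M)

/-- The fibre sum over the digits in `V`. -/
theorem vsum {B ρ : ℕ} {V : Finset ℕ} {v₀ : ℕ} {A A' : Set ℕ}
    (hVA : ∀ d ∈ V, br B d A = br B v₀ A) (hsub : A' ⊆ A)
    (hρ : ∀ y : ℕ, ∀ F : Finset ℕ, F ⊆ V → (∀ v ∈ F, v + B * y ∈ A') → F.card ≤ ρ) (M : ℕ) :
    ∑ d ∈ V, cnt (br B d A') M ≤ ρ * cnt (br B v₀ A) M := by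
  classical
  unfold cnt
  simp only [Finset.card_filter]
  rw [Finset.sum_comm, Finset.mul_sum]
  refine Finset.sum_le_sum fun y _ => ?_
  rw [← Finset.card_filter]
  by_cases hy : y ∈ br B v₀ A
  · rw [if_pos hy, mul_one]
    refine hρ y _ (Finset.filter_subset _ _) ?_
    intro v hv
    exact (Finset.mem_filter.1 hv).2
  · rw [if_neg hy, mul_zero, Nat.le_zero, Finset.card_eq_zero, Finset.filter_eq_empty_iff]
    intro d hd hd'
    apply hy
    rw [← hVA d hd]
    exact hsub hd'

/-- Few elements: `|V| |A'| ≤ ρ |A| + error`, if the windows in `V` can be exchanged inside `A`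
and `A'` meets every copy of `V` in at most `ρ` points. -/
theorem vpart {B ρ : ℕ} {V : Finset ℕ} (hV : V ⊆ range B) (hV2 : 2 ≤ V.card)
    (P : Set ℕ → Prop) (hP : ∀ A' : Set ℕ, P A' → ∀ d < B, P (br B d A'))
    (hρ : ∀ A' : Set ℕ, P A' → ∀ y : ℕ, ∀ F : Finset ℕ, F ⊆ V → (∀ v ∈ F, v + B * y ∈ A') →
      F.card ≤ ρ) (T : ℕ) :
    ∀ A : Set ℕ, (∀ n i : ℕ, ∀ v ∈ V, ∀ v' ∈ V, v ≤ v' → n / B ^ i % B = v →
        (n ∈ A ↔ n + (v' - v) * B ^ i ∈ A)) →
      ∀ A' : Set ℕ, A' ⊆ A → P A' → ∀ N : ℕ, N ≤ B ^ T →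
        V.card * cnt A' N ≤ ρ * cnt A N + 2 * V.card ^ 2 * (B - 1) ^ T := by
  set K := V.card with hK
  have hKB : K ≤ B := by
    have := Finset.card_le_card hV
    rwa [card_range] at this
  have hB0 : 0 < B := by omega
  obtain ⟨v₀, hv₀⟩ : V.Nonempty := Finset.card_pos.1 (by omega)
  induction T with
  | zero =>
    intro A _ A' _ _ N hN
    have h1 : cnt A' N ≤ 1 := le_trans (cnt_le A' N) (by simpa using hN)
    have h2 : K * cnt A' N ≤ K * 1 := Nat.mul_le_mul_left _ h1
    have h3 : K ≤ 2 * K ^ 2 * (B - 1) ^ 0 := by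
      rw [pow_zero, mul_one]; nlinarith
    omega
  | succ T ih =>
    intro A hA A' hsub hno N hN
    classical
    set E := 2 * K ^ 2 * (B - 1) ^ T with hE
    set Nd : ℕ → ℕ := fun d => (N + B - 1 - d) / B with hNd
    have hNdle : ∀ d, Nd d ≤ B ^ T := by
      intro d
      simp only [hNd]
      rw [← Nat.lt_add_one_iff, Nat.div_lt_iff_lt_mul hB0]
      have : (B ^ T + 1) * B = B ^ (T + 1) + B := by ring
      omega
    have hbrA : ∀ d < B, ∀ n i : ℕ, ∀ v ∈ V, ∀ v' ∈ V, v ≤ v' → n / B ^ i % B = v →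
        (n ∈ br B d A ↔ n + (v' - v) * B ^ i ∈ br B d A) := by
      intro d hd n i v hv v' hv' hvv hn
      have h1 : (d + B * n) / B ^ (i + 1) % B = v := by
        rw [pow_succ, mul_comm (B ^ i) B, ← Nat.div_div_eq_div_mul,
          Nat.add_mul_div_left _ _ hB0, Nat.div_eq_of_lt hd, zero_add]
        exact hn
      have h2 := hA (d + B * n) (i + 1) v hv v' hv' hvv h1
      rw [mem_br, mem_br, h2]
      have e : d + B * n + (v' - v) * B ^ (i + 1) = d + B * (n + (v' - v) * B ^ i) := by ring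
      rw [e]
    have hall : ∀ d ∈ range B, K * cnt (br B d A') (Nd d) ≤ ρ * cnt (br B d A) (Nd d) + E :=
      fun d hd => ih (br B d A) (hbrA d (mem_range.1 hd)) (br B d A') (fun y hy => hsub hy)
        (hP A' hno d (mem_range.1 hd)) (Nd d) (hNdle d)
    have hAup : ∀ v ∈ V, ∀ v' ∈ V, v ≤ v' → br B v A = br B v' A := by
      intro v hv v' hv' hvv
      ext y
      rw [mem_br, mem_br]
      have h2 := hA (v + B * y) 0 v hv v' hv' hvv
        (by rw [pow_zero, Nat.div_one, Nat.add_mul_mod_self_left,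
          Nat.mod_eq_of_lt (mem_range.1 (hV hv))])
      rw [pow_zero, mul_one] at h2
      have e : v + B * y + (v' - v) = v' + B * y := by omega
      rwa [e] at h2
    have hAeq : ∀ d ∈ V, br B d A = br B v₀ A := by
      intro d hd
      rcases le_total d v₀ with h | h
      · exact hAup d hd v₀ hv₀ h
      · exact (hAup v₀ hv₀ d hd h).symm
    set M := N / B with hM
    have hle1 : ∀ d < B, M ≤ Nd d := by
      intro d hd
      simp only [hM, hNd]
      exact Nat.div_le_div_right (by omega)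
    have hle2 : ∀ d, Nd d ≤ M + 1 := by
      intro d
      simp only [hM, hNd]
      rw [← Nat.add_div_right _ hB0]
      exact Nat.div_le_div_right (by omega)
    have hVsum : K * ∑ d ∈ V, cnt (br B d A') (Nd d) ≤
        ρ * ∑ d ∈ V, cnt (br B d A) (Nd d) + K ^ 2 := by
      have h1 : ∑ d ∈ V, cnt (br B d A') (Nd d) ≤ ρ * cnt (br B v₀ A) M + K := by
        calc ∑ d ∈ V, cnt (br B d A') (Nd d)
            ≤ ∑ d ∈ V, (cnt (br B d A') M + 1) :=
              Finset.sum_le_sum fun d _ => cnt_le_add_one (hle2 d)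
          _ = ∑ d ∈ V, cnt (br B d A') M + K := by
              rw [Finset.sum_add_distrib]; simp [hK]
          _ ≤ ρ * cnt (br B v₀ A) M + K :=
              Nat.add_le_add_right (vsum hAeq hsub (hρ A' hno) M) _
      have h2 : K * cnt (br B v₀ A) M ≤ ∑ d ∈ V, cnt (br B d A) (Nd d) := by
        calc K * cnt (br B v₀ A) M = ∑ d ∈ V, cnt (br B v₀ A) M := by simp [hK]
          _ ≤ _ := Finset.sum_le_sum fun d hd => by
              rw [hAeq d hd]
              exact cnt_mono (hle1 d (mem_range.1 (hV hd)))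
      calc K * ∑ d ∈ V, cnt (br B d A') (Nd d)
          ≤ K * (ρ * cnt (br B v₀ A) M + K) := Nat.mul_le_mul_left _ h1
        _ = ρ * (K * cnt (br B v₀ A) M) + K ^ 2 := by ring
        _ ≤ _ := Nat.add_le_add_right (Nat.mul_le_mul_left _ h2) _
    have hRsum : K * ∑ d ∈ range B \ V, cnt (br B d A') (Nd d) ≤
        ρ * ∑ d ∈ range B \ V, cnt (br B d A) (Nd d) + (B - K) * E := by
      rw [Finset.mul_sum, Finset.mul_sum]
      calc ∑ d ∈ range B \ V, K * cnt (br B d A') (Nd d)
          ≤ ∑ d ∈ range B \ V, (ρ * cnt (br B d A) (Nd d) + E) :=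
            Finset.sum_le_sum fun d hd => hall d (Finset.mem_sdiff.1 hd).1
        _ = ∑ d ∈ range B \ V, ρ * cnt (br B d A) (Nd d) + (B - K) * E := by
            rw [Finset.sum_add_distrib, Finset.sum_const, Finset.card_sdiff_of_subset hV,
              ← hK, card_range, smul_eq_mul]
    have hs1 := Finset.sum_sdiff (f := fun d => cnt (br B d A') (Nd d)) hV
    have hs2 := Finset.sum_sdiff (f := fun d => cnt (br B d A) (Nd d)) hV
    rw [cnt_split hB0 A' N, cnt_split hB0 A N]
    change K * ∑ d ∈ range B, cnt (br B d A') (Nd d) ≤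
      ρ * ∑ d ∈ range B, cnt (br B d A) (Nd d) + 2 * K ^ 2 * (B - 1) ^ (T + 1)
    rw [← hs1, ← hs2, mul_add, mul_add]
    have hE1 : K ^ 2 ≤ E := by
      have h5 : 1 ≤ (B - 1) ^ T := Nat.one_le_pow _ _ (by omega)
      rw [hE]; nlinarith [Nat.zero_le (K ^ 2)]
    have hE2 : (B - K) * E + K ^ 2 ≤ 2 * K ^ 2 * (B - 1) ^ (T + 1) := by
      calc (B - K) * E + K ^ 2 ≤ (B - K) * E + E := by omega
        _ = (B - K + 1) * E := by ring
        _ ≤ (B - 1) * E := Nat.mul_le_mul_right _ (by omega)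
        _ = 2 * K ^ 2 * (B - 1) ^ (T + 1) := by rw [hE]; ring
    omega

end Vale.Agent.P042.H499
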