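import Vale.Agent.P042.R2.H499.Two

set_option autoImplicit false

/-!
P042: relative density of sets without differences `a n ^ k` inside sets defined by a sequence which
is given by products of integer matrices of polynomial growth (regular sequences of polylogarithmic
growth).
-/

namespace Vale.Agent.P042.H499

open Finset Vale.Agent.P057.H380 Vale.Agent.P057.R3.H664

theorem poly_le_exp (E m : ℕ) :
    ((m : ℝ) + 1) ^ E ≤ 2 ^ E * ((2 * E).factorial : ℝ) * Real.exp ((m : ℝ) ^ (1 / 2 : ℝ)) := by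
  rcases Nat.eq_zero_or_pos m with h | hm
  · subst h
    have h1 : (1 : ℝ) ≤ 2 ^ E := one_le_pow₀ (by norm_num)
    have h2 : (1 : ℝ) ≤ ((2 * E).factorial : ℝ) := by
      exact_mod_cast Nat.one_le_iff_ne_zero.2 (Nat.factorial_ne_zero _)
    have h3 : (1 : ℝ) ≤ Real.exp (((0 : ℕ) : ℝ) ^ (1 / 2 : ℝ)) :=
      Real.one_le_exp (Real.rpow_nonneg (by simp) _)
    have h4 : (1 : ℝ) ≤ 2 ^ E * ((2 * E).factorial : ℝ) := one_le_mul_of_one_le_of_one_le h1 h2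
    have h5 := one_le_mul_of_one_le_of_one_le h4 h3
    simpa using h5
  · have hm1 : (1 : ℝ) ≤ m := by exact_mod_cast hm
    have hx : (0 : ℝ) ≤ (m : ℝ) ^ (1 / 2 : ℝ) := Real.rpow_nonneg (by linarith) _
    have e1 := Real.pow_div_factorial_le_exp _ hx (2 * E)
    have e2 : ((m : ℝ) ^ (1 / 2 : ℝ)) ^ (2 * E) = (m : ℝ) ^ E := by
      rw [pow_mul, ← Real.rpow_natCast _ 2, ← Real.rpow_mul (by linarith)]
      norm_num
    rw [e2, div_le_iff₀ (by positivity)] at e1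
    calc ((m : ℝ) + 1) ^ E ≤ 2 ^ E * (m : ℝ) ^ E := by
          rw [← mul_pow]
          exact pow_le_pow_left₀ (by positivity) (by linarith) E
      _ ≤ 2 ^ E * (Real.exp ((m : ℝ) ^ (1 / 2 : ℝ)) * ((2 * E).factorial : ℝ)) := by
          gcongr
      _ = _ := by ring

theorem mat_prods {n b : ℕ} (M : ℕ → Matrix (Fin n) (Fin n) ℤ) (C c : ℕ)
    (hM : ∀ w : List ℕ, Dig b w → ∀ i j : Fin n,
      |(w.map M).prod i j| ≤ C * ((w.length : ℤ) + 1) ^ c) (m : ℕ) :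
    (prods b M m).ncard ≤ ((2 * (C * (m + 1) ^ c) + 1) ^ n) ^ n := by
  classical
  set B : ℕ := C * (m + 1) ^ c with hB
  let F : Finset (Fin n → Fin n → ℤ) :=
    Fintype.piFinset fun _ : Fin n => Fintype.piFinset fun _ : Fin n =>
      Finset.Icc (-(B : ℤ)) (B : ℤ)
  have hF : F.card = ((2 * B + 1) ^ n) ^ n := by
    rw [Fintype.card_piFinset]
    simp only [Fintype.card_piFinset, Int.card_Icc, Finset.prod_const, Finset.card_univ,
      Fintype.card_fin]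
    congr 2
    omega
  rw [← hF, ← Set.ncard_coe_finset F,
    ← Set.ncard_image_of_injective (prods b M m) (Matrix.of (α := ℤ)).symm.injective]
  refine Set.ncard_le_ncard ?_ (Finset.finite_toSet F)
  rintro Z ⟨_, ⟨w, hw, hd, rfl⟩, rfl⟩
  rw [Finset.mem_coe, Fintype.mem_piFinset]
  intro i
  rw [Fintype.mem_piFinset]
  intro j
  have h := abs_le.1 (hM w hd i j)
  rw [hw] at h
  rw [Finset.mem_Icc, hB]
  push_cast
  exact h

/-- **Relative density, matrix products of polynomial growth.** -/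
theorem mat_relative {a k : ℕ} (ha : 1 ≤ a) (hk : 2 ≤ k) {b : ℕ} (hb : 2 ≤ b) (n C c : ℕ)
    {ε : ℝ} (hε : 0 < ε) :
    ∃ θ K : ℝ, 0 < θ ∧ θ < 1 ∧ 0 < K ∧
      ∀ (M : ℕ → Matrix (Fin n) (Fin n) ℤ),
        (∀ w : List ℕ, Dig b w → ∀ i j : Fin n,
          |(w.map M).prod i j| ≤ C * ((w.length : ℤ) + 1) ^ c) →
        ∀ (S : Set (Matrix (Fin n) (Fin n) ℤ)) (A' : Set ℕ), A' ⊆ digitSet b M S →
          PowerFree a k A' → ∀ N : ℕ, 1 ≤ N →
            ((A' ∩ Set.Icc 1 N).ncard : ℝ) ≤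
              ε * ((digitSet b M S ∩ Set.Icc 1 N).ncard : ℝ) + K * (N : ℝ) ^ θ := by
  obtain ⟨θ, K, h0, h1, h2, h3⟩ := monoid_relative ha hk hb (c := 1 / 2) (by norm_num)
    (((2 * C + 1) ^ n) ^ n * (2 ^ (c * n * n) * ((2 * (c * n * n)).factorial : ℝ))) hε
  refine ⟨θ, K, h0, h1, h2, fun M hM S A' hsub hA' N hN => h3 _ M ?_ S A' hsub hA' N hN⟩
  intro m
  have e1 : ((prods b M m).ncard : ℝ) ≤ ((2 * (C * ((m : ℝ) + 1) ^ c) + 1) ^ n) ^ n := by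
    exact_mod_cast mat_prods M C c hM m
  have e2 : 2 * (C * ((m : ℝ) + 1) ^ c) + 1 ≤ (2 * C + 1) * ((m : ℝ) + 1) ^ c := by
    have : (1 : ℝ) ≤ ((m : ℝ) + 1) ^ c := one_le_pow₀ (by
      have : (0 : ℝ) ≤ m := Nat.cast_nonneg m
      linarith)
    nlinarith
  calc ((prods b M m).ncard : ℝ) ≤ ((2 * (C * ((m : ℝ) + 1) ^ c) + 1) ^ n) ^ n := e1
    _ ≤ (((2 * C + 1) * ((m : ℝ) + 1) ^ c) ^ n) ^ n := by gcongr
    _ = ((2 * C + 1) ^ n) ^ n * ((m : ℝ) + 1) ^ (c * n * n) := by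
        rw [mul_pow, mul_pow, ← pow_mul ((m : ℝ) + 1), ← pow_mul ((m : ℝ) + 1)]
    _ ≤ ((2 * C + 1) ^ n) ^ n * (2 ^ (c * n * n) * ((2 * (c * n * n)).factorial : ℝ) *
          Real.exp ((m : ℝ) ^ (1 / 2 : ℝ))) :=
        mul_le_mul_of_nonneg_left (poly_le_exp _ _) (by positivity)
    _ = _ := by ring

/-- **Relative density, sequences given by matrix products of polynomial growth.** -/
theorem seq_relative {a k : ℕ} (ha : 1 ≤ a) (hk : 2 ≤ k) {b : ℕ} (hb : 2 ≤ b) {n r : ℕ}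
    (f : ℕ → Fin r → ℤ) (M : ℕ → Matrix (Fin n) (Fin n) ℤ)
    (Φ : Matrix (Fin n) (Fin n) ℤ → Fin r → ℤ) (C c : ℕ)
    (hM : ∀ w : List ℕ, Dig b w → ∀ i j : Fin n,
      |(w.map M).prod i j| ≤ C * ((w.length : ℤ) + 1) ^ c)
    (hf : ∀ w : List ℕ, Dig b w → f (Nat.ofDigits b w) = Φ ((w.map M).prod))
    {ε : ℝ} (hε : 0 < ε) :
    ∃ θ K : ℝ, 0 < θ ∧ θ < 1 ∧ 0 < K ∧ ∀ (S : Set (Fin r → ℤ)) (A A' : Set ℕ),
      A = {n | f n ∈ S} → A' ⊆ A → PowerFree a k A' → ∀ N : ℕ, 1 ≤ N →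
        ((A' ∩ Set.Icc 1 N).ncard : ℝ) ≤
          ε * ((A ∩ Set.Icc 1 N).ncard : ℝ) + K * (N : ℝ) ^ θ := by
  obtain ⟨θ, K, h0, h1, h2, h3⟩ := mat_relative ha hk hb n C c hε
  refine ⟨θ, K, h0, h1, h2, fun S A A' hA hsub hA' N hN => ?_⟩
  have e : digitSet b M (Φ ⁻¹' S) = A := by
    rw [hA]
    unfold digitSet
    ext x
    rw [Set.mem_ofPred_eq, Set.mem_ofPred_eq, Set.mem_preimage,
      ← hf (Nat.digits b x) (fun d hd => Nat.digits_lt_base (by omega) hd), Nat.ofDigits_digits]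
  have := h3 M hM (Φ ⁻¹' S) A' (by rw [e]; exact hsub) hA' N hN
  rwa [e] at this

end Vale.Agent.P042.H499
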