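import Mathlib

set_option autoImplicit false

/-!
Matrix representation with entries of polynomial growth of a regular sequence of polylogarithmic
growth.
-/

namespace Vale.Agent.P042.H499

/-- The `b`-kernel of a sequence with values in `ℤ ^ r`: all `n ↦ f (b ^ j * n + s)`,
`s < b ^ j`. -/
def kernelSet {r : ℕ} (b : ℕ) (f : ℕ → Fin r → ℤ) : Set (ℕ → Fin r → ℤ) :=
  {g | ∃ j s : ℕ, s < b ^ j ∧ g = fun n => f (b ^ j * n + s)}

/-- The map `g ↦ (m ↦ g (b m + d))`. -/
def sh {r : ℕ} (b d : ℕ) : (ℕ → Fin r → ℤ) →ₗ[ℤ] (ℕ → Fin r → ℤ) where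
  toFun g := fun m => g (b * m + d)
  map_add' _ _ := rfl
  map_smul' _ _ := rfl

theorem sh_mem {r b d : ℕ} (hd : d < b) (f : ℕ → Fin r → ℤ) (g : ℕ → Fin r → ℤ)
    (hg : g ∈ Submodule.span ℤ (kernelSet b f)) :
    sh b d g ∈ Submodule.span ℤ (kernelSet b f) := by
  have h : (Submodule.span ℤ (kernelSet b f)).map (sh b d) ≤
      Submodule.span ℤ (kernelSet b f) := by
    rw [Submodule.map_span_le]
    rintro _ ⟨j, s, hs, rfl⟩
    apply Submodule.subset_span
    refine ⟨j + 1, b ^ j * d + s, ?_, ?_⟩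
    · calc b ^ j * d + s < b ^ j * d + b ^ j := by omega
        _ = b ^ j * (d + 1) := by ring
        _ ≤ b ^ j * b := Nat.mul_le_mul_left _ hd
        _ = b ^ (j + 1) := (pow_succ _ _).symm
    · funext m
      change f (b ^ j * (b * m + d) + s) = f (b ^ (j + 1) * m + (b ^ j * d + s))
      congr 1
      ring
  exact h (Submodule.mem_map_of_mem hg)

theorem log_bound {b : ℕ} (hb : 2 ≤ b) (j s x : ℕ) (hs : s < b ^ j) :
    Nat.log b (b ^ j * x + s) ≤ j + Nat.log b x := by
  rcases Nat.eq_zero_or_pos (b ^ j * x + s) with h | h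
  · rw [h]
    simp
  · have h1 : x < b ^ (Nat.log b x + 1) := Nat.lt_pow_succ_log_self (by omega) x
    have h2 : b ^ j * x + s < b ^ (j + Nat.log b x + 1) := by
      calc b ^ j * x + s < b ^ j * x + b ^ j := by omega
        _ = b ^ j * (x + 1) := by ring
        _ ≤ b ^ j * b ^ (Nat.log b x + 1) := Nat.mul_le_mul_left _ h1
        _ = b ^ (j + Nat.log b x + 1) := by rw [← pow_add]; ring_nf
    have h3 := Nat.log_lt_of_lt_pow (by omega) h2
    omega

theorem growth {r b : ℕ} (hb : 2 ≤ b) (f : ℕ → Fin r → ℤ) (C c : ℕ)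
    (hg : ∀ (n : ℕ) (i : Fin r), |f n i| ≤ C * ((Nat.log b n : ℤ) + 1) ^ c)
    (g : ℕ → Fin r → ℤ) (hgV : g ∈ Submodule.span ℤ (kernelSet b f)) :
    ∃ K : ℕ, ∀ x ρ, |g x ρ| ≤ K * ((Nat.log b x : ℤ) + 1) ^ c := by
  induction hgV using Submodule.span_induction with
  | mem g hgk =>
    obtain ⟨j, s, hs, rfl⟩ := hgk
    refine ⟨C * (j + 1) ^ c, fun x ρ => (hg _ ρ).trans ?_⟩
    have h1 : ((Nat.log b (b ^ j * x + s) : ℤ) + 1) ≤ ((j : ℤ) + 1) * ((Nat.log b x : ℤ) + 1) := by
      have h2 : ((Nat.log b (b ^ j * x + s) : ℕ) : ℤ) ≤ ((j + Nat.log b x : ℕ) : ℤ) := by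
        exact_mod_cast log_bound hb j s x hs
      push_cast at h2
      have h3 : (0 : ℤ) ≤ (j : ℤ) * (Nat.log b x : ℤ) := by positivity
      nlinarith
    push_cast
    rw [mul_assoc, ← mul_pow]
    exact mul_le_mul_of_nonneg_left (pow_le_pow_left₀ (by positivity) h1 c) (by positivity)
  | zero => exact ⟨0, fun x ρ => by simp⟩
  | add g g' _ _ ih ih' =>
    obtain ⟨K, hK⟩ := ih
    obtain ⟨K', hK'⟩ := ih'
    refine ⟨K + K', fun x ρ => ?_⟩
    have h1 := abs_add_le (g x ρ) (g' x ρ)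
    have h2 := hK x ρ
    have h3 := hK' x ρ
    push_cast
    rw [add_mul]
    calc |(g + g') x ρ| = |g x ρ + g' x ρ| := rfl
      _ ≤ _ := by linarith
  | smul a g _ ih =>
    obtain ⟨K, hK⟩ := ih
    refine ⟨a.natAbs * K, fun x ρ => ?_⟩
    have h2 := hK x ρ
    push_cast
    calc |(a • g) x ρ| = |a * g x ρ| := rfl
      _ = |a| * |g x ρ| := abs_mul _ _
      _ ≤ |a| * (K * ((Nat.log b x : ℤ) + 1) ^ c) := mul_le_mul_of_nonneg_left h2 (abs_nonneg _)
      _ = _ := by ring

/-- **Matrix representation.** -/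
theorem reg_mat {b r : ℕ} (hb : 2 ≤ b) (f : ℕ → Fin r → ℤ)
    (hf : (Submodule.span ℤ (kernelSet b f)).FG) (C c : ℕ)
    (hg : ∀ (n : ℕ) (i : Fin r), |f n i| ≤ C * ((Nat.log b n : ℤ) + 1) ^ c) :
    ∃ (n : ℕ) (M : ℕ → Matrix (Fin n) (Fin n) ℤ) (Φ : Matrix (Fin n) (Fin n) ℤ → Fin r → ℤ)
      (C' c' : ℕ),
      (∀ w : List ℕ, (∀ d ∈ w, d < b) → ∀ i j : Fin n,
        |(w.map M).prod i j| ≤ C' * ((w.length : ℤ) + 1) ^ c') ∧
      ∀ w : List ℕ, (∀ d ∈ w, d < b) → f (Nat.ofDigits b w) = Φ ((w.map M).prod) := by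
  classical
  set V := Submodule.span ℤ (kernelSet b f) with hV
  have hfin : Module.Finite ℤ V := Module.Finite.iff_fg.2 hf
  have hfree : Module.Free ℤ V := inferInstance
  let B := Module.finBasis ℤ V
  set n := Module.finrank ℤ V with hn
  let v : Fin n → ℕ → Fin r → ℤ := fun i => (B i : ℕ → Fin r → ℤ)
  let M : ℕ → Matrix (Fin n) (Fin n) ℤ := fun d => Matrix.of fun i j =>
    if h : d < b then B.repr ⟨sh b d (B i : ℕ → Fin r → ℤ), sh_mem h f _ (B i).2⟩ j else 0
  have hrec : ∀ d, d < b → ∀ i m ρ, v i (b * m + d) ρ = ∑ j, M d i j * v j m ρ := by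
    intro d hd i m ρ
    have h1 := B.sum_repr ⟨sh b d (B i : ℕ → Fin r → ℤ), sh_mem hd f _ (B i).2⟩
    have h2 := congrFun (congrFun (congrArg Subtype.val h1) m) ρ
    rw [Submodule.coe_sum] at h2
    simp only [Submodule.coe_smul, Finset.sum_apply, Pi.smul_apply, smul_eq_mul] at h2
    have h3 : v i (b * m + d) ρ = (sh b d (B i : ℕ → Fin r → ℤ)) m ρ := rfl
    rw [h3, ← h2]
    refine Finset.sum_congr rfl fun j _ => ?_
    simp only [M, Matrix.of_apply, dif_pos hd, v]
  have hword : ∀ w : List ℕ, (∀ d ∈ w, d < b) → ∀ i m ρ,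
      v i (b ^ w.length * m + Nat.ofDigits b w) ρ = ∑ j, (w.map M).prod i j * v j m ρ := by
    intro w
    induction w with
    | nil =>
      intro _ i m ρ
      simp [Matrix.one_apply]
    | cons d w ih =>
      intro hw i m ρ
      have hd : d < b := hw d (List.mem_cons_self ..)
      have hw' : ∀ d ∈ w, d < b := fun x hx => hw x (List.mem_cons_of_mem _ hx)
      have e : b ^ (d :: w).length * m + Nat.ofDigits b (d :: w) =
          b * (b ^ w.length * m + Nat.ofDigits b w) + d := by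
        rw [Nat.ofDigits_cons, List.length_cons, pow_succ]
        push_cast
        ring
      rw [e, hrec d hd]
      simp only [ih hw', List.map_cons, List.prod_cons, Matrix.mul_apply, Finset.sum_mul,
        Finset.mul_sum]
      rw [Finset.sum_comm]
      refine Finset.sum_congr rfl fun j _ => Finset.sum_congr rfl fun l _ => ?_
      ring
  -- the evaluations span
  let u : ℕ × Fin r → (Fin n → ℚ) := fun x i => (v i x.1 x.2 : ℚ)
  have hspan : Submodule.span ℚ (Set.range u) = ⊤ := by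
    by_contra hne
    obtain ⟨φ, hφ0, hφ⟩ := Submodule.exists_le_ker_of_lt_top _ (lt_top_iff_ne_top.2 hne)
    have hq : ∀ x : ℕ × Fin r, ∑ i, (v i x.1 x.2 : ℚ) * φ (Pi.single i 1) = 0 := by
      intro x
      have h1 : φ (u x) = 0 := hφ (Submodule.subset_span ⟨x, rfl⟩)
      rw [LinearMap.pi_apply_eq_sum_univ] at h1
      rw [← h1]
      refine Finset.sum_congr rfl fun i _ => ?_
      rw [smul_eq_mul]
      congr 2
      funext j
      simp [Pi.single_apply, eq_comm]
    obtain ⟨D, z, hD, hz⟩ : ∃ (D : ℕ) (z : Fin n → ℤ), D ≠ 0 ∧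
        ∀ i, (z i : ℚ) = D * φ (Pi.single i 1) := by
      refine ⟨∏ i : Fin n, (φ (Pi.single i 1)).den, fun i =>
        (φ (Pi.single i 1)).num * ∏ j ∈ Finset.univ.erase i, ((φ (Pi.single j 1)).den : ℤ), ?_, ?_⟩
      · exact Finset.prod_ne_zero_iff.2 fun i _ => (φ (Pi.single i 1)).den_ne_zero
      · intro i
        rw [← Finset.mul_prod_erase Finset.univ _ (Finset.mem_univ i)]
        push_cast
        have h1 : φ (Pi.single i 1) * (φ (Pi.single i 1)).den = (φ (Pi.single i 1)).num :=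
          Rat.mul_den_eq_num _
        rw [← h1]
        ring
    have hsum : ∑ i, z i • B i = 0 := by
      apply Subtype.ext
      funext m ρ
      rw [Submodule.coe_sum]
      simp only [Submodule.coe_smul, Finset.sum_apply, Pi.smul_apply, smul_eq_mul,
        Submodule.coe_zero, Pi.zero_apply]
      have h1 : ((∑ i, z i * v i m ρ : ℤ) : ℚ) = 0 := by
        push_cast
        have h2 := hq (m, ρ)
        calc ∑ i, (z i : ℚ) * (v i m ρ : ℚ) = D * ∑ i, (v i m ρ : ℚ) * φ (Pi.single i 1) := by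
              rw [Finset.mul_sum]
              refine Finset.sum_congr rfl fun i _ => ?_
              rw [hz]
              ring
          _ = 0 := by rw [h2, mul_zero]
      exact_mod_cast h1
    have hz0 := Fintype.linearIndependent_iff.1 B.linearIndependent z hsum
    apply hφ0
    apply LinearMap.pi_ext'
    intro i
    apply LinearMap.ext_ring
    have h1 := hz i
    rw [hz0 i, Int.cast_zero] at h1
    have h2 : φ (Pi.single i 1) = 0 := by
      rcases mul_eq_zero.1 h1.symm with h | h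
      · exact absurd (by exact_mod_cast h) hD
      · exact h
    simpa using h2
  have hcoef : ∀ j : Fin n, ∃ a : (ℕ × Fin r) →₀ ℚ,
      (a.sum fun x t => t • u x) = Pi.single j 1 := by
    intro j
    rw [← Finsupp.mem_span_range_iff_exists_finsupp, hspan]
    exact Submodule.mem_top
  choose a ha using hcoef
  have hgr : ∀ i : Fin n, ∃ K : ℕ, ∀ x ρ, |v i x ρ| ≤ K * ((Nat.log b x : ℤ) + 1) ^ c :=
    fun i => growth hb f C c hg _ (B i).2
  choose K hK using hgr
  -- the matrix entries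
  have hentry : ∀ w : List ℕ, (∀ d ∈ w, d < b) → ∀ i j : Fin n,
      ((w.map M).prod i j : ℚ) = (a j).sum fun x t =>
        t * (v i (b ^ w.length * x.1 + Nat.ofDigits b w) x.2 : ℚ) := by
    intro w hw i j
    have h1 : ((w.map M).prod i j : ℚ) =
        ∑ l, ((w.map M).prod i l : ℚ) * (Pi.single j (1 : ℚ) : Fin n → ℚ) l := by
      rw [Finset.sum_eq_single j]
      · simp
      · intro l _ hl
        simp [hl]
      · intro h
        exact absurd (Finset.mem_univ _) h
    rw [h1]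
    have h2 : ∀ l, (Pi.single j (1 : ℚ) : Fin n → ℚ) l =
        ∑ x ∈ (a j).support, (a j) x * (v l x.1 x.2 : ℚ) := by
      intro l
      rw [← ha j, Finsupp.sum, Finset.sum_apply]
      rfl
    simp only [h2, Finset.mul_sum]
    rw [Finset.sum_comm, Finsupp.sum]
    refine Finset.sum_congr rfl fun x _ => ?_
    rw [hword w hw]
    push_cast
    rw [Finset.mul_sum]
    refine Finset.sum_congr rfl fun l _ => ?_
    ring
  let KK : Fin n → Fin n → ℚ := fun i j => (a j).sum fun x t =>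
    |t| * (K i * ((Nat.log b x.1 : ℚ) + 1) ^ c)
  obtain ⟨C', hC'⟩ : ∃ C' : ℕ, ∀ i j, KK i j ≤ C' := by
    refine ⟨∑ i, ∑ j, ⌈KK i j⌉₊, fun i j => ?_⟩
    have h1 : ⌈KK i j⌉₊ ≤ ∑ i, ∑ j, ⌈KK i j⌉₊ :=
      (Finset.single_le_sum (f := fun j => ⌈KK i j⌉₊) (fun _ _ => Nat.zero_le _)
        (Finset.mem_univ j)).trans
      (Finset.single_le_sum (f := fun i => ∑ j, ⌈KK i j⌉₊) (fun _ _ => Nat.zero_le _)
        (Finset.mem_univ i))
    exact (Nat.le_ceil _).trans (by exact_mod_cast h1)
  let Φ : Matrix (Fin n) (Fin n) ℤ → Fin r → ℤ := fun Z ρ =>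
    ∑ i, B.repr ⟨f, Submodule.subset_span ⟨0, 0, by simp, by simp⟩⟩ i * ∑ j, Z i j * v j 0 ρ
  refine ⟨n, M, Φ, C', c, ?_, ?_⟩
  · intro w hw i j
    have h1 : |((w.map M).prod i j : ℚ)| ≤ C' * ((w.length : ℚ) + 1) ^ c := by
      rw [hentry w hw i j]
      calc |(a j).sum fun x t => t * (v i (b ^ w.length * x.1 + Nat.ofDigits b w) x.2 : ℚ)|
          ≤ (a j).sum fun x t =>
              |t| * (K i * ((Nat.log b x.1 : ℚ) + 1) ^ c) * ((w.length : ℚ) + 1) ^ c := by
            rw [Finsupp.sum, Finsupp.sum]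
            refine (Finset.abs_sum_le_sum_abs _ _).trans (Finset.sum_le_sum fun x _ => ?_)
            rw [abs_mul, mul_assoc]
            refine mul_le_mul_of_nonneg_left ?_ (abs_nonneg _)
            have h2 := hK i (b ^ w.length * x.1 + Nat.ofDigits b w) x.2
            have h3 := log_bound hb w.length (Nat.ofDigits b w) x.1
              (Nat.ofDigits_lt_base_pow_length (by omega) hw)
            have h4 : |(v i (b ^ w.length * x.1 + Nat.ofDigits b w) x.2 : ℚ)| ≤
                K i * ((Nat.log b (b ^ w.length * x.1 + Nat.ofDigits b w) : ℚ) + 1) ^ c := by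
              exact_mod_cast h2
            refine h4.trans ?_
            rw [mul_assoc, ← mul_pow]
            refine mul_le_mul_of_nonneg_left (pow_le_pow_left₀ (by positivity) ?_ c)
              (Nat.cast_nonneg _)
            have h5 : (Nat.log b (b ^ w.length * x.1 + Nat.ofDigits b w) : ℚ) ≤
                w.length + Nat.log b x.1 := by exact_mod_cast h3
            have h6 : (0 : ℚ) ≤ (w.length : ℚ) * (Nat.log b x.1 : ℚ) := by positivity
            nlinarith
        _ = KK i j * ((w.length : ℚ) + 1) ^ c := by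
            simp only [KK, Finsupp.sum, Finset.sum_mul]
        _ ≤ _ := mul_le_mul_of_nonneg_right (hC' i j) (by positivity)
    exact_mod_cast h1
  · intro w hw
    funext ρ
    have h1 := B.sum_repr ⟨f, Submodule.subset_span ⟨0, 0, by simp, by simp⟩⟩
    have h2 := congrFun (congrFun (congrArg Subtype.val h1) (Nat.ofDigits b w)) ρ
    rw [Submodule.coe_sum] at h2
    simp only [Submodule.coe_smul, Finset.sum_apply, Pi.smul_apply, smul_eq_mul] at h2
    rw [← h2]
    refine Finset.sum_congr rfl fun i _ => ?_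
    have h3 := hword w hw i 0 ρ
    rw [mul_zero, zero_add] at h3
    rw [← h3]

end Vale.Agent.P042.H499
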