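import Vale.Agent.P042.R2.H499.Reg
import Vale.Agent.P042.R2.H499.RegMat

set_option autoImplicit false

/-!
P042: relative density of sets without differences `a n ^ k` inside sets defined by a regular
sequence of polylogarithmic growth.
-/

namespace Vale.Agent.P042.H499

/-- **Relative density, regular sequences of polylogarithmic growth.** -/
theorem regular_relative {a k : ℕ} (ha : 1 ≤ a) (hk : 2 ≤ k) {b r : ℕ} (hb : 2 ≤ b)
    (f : ℕ → Fin r → ℤ) (hf : (Submodule.span ℤ (kernelSet b f)).FG) (C c : ℕ)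
    (hg : ∀ (n : ℕ) (i : Fin r), |f n i| ≤ C * ((Nat.log b n : ℤ) + 1) ^ c)
    {ε : ℝ} (hε : 0 < ε) :
    ∃ θ K : ℝ, 0 < θ ∧ θ < 1 ∧ 0 < K ∧ ∀ (S : Set (Fin r → ℤ)) (A A' : Set ℕ),
      A = {n | f n ∈ S} → A' ⊆ A → PowerFree a k A' → ∀ N : ℕ, 1 ≤ N →
        ((A' ∩ Set.Icc 1 N).ncard : ℝ) ≤
          ε * ((A ∩ Set.Icc 1 N).ncard : ℝ) + K * (N : ℝ) ^ θ := by
  obtain ⟨n, M, Φ, C', c', hM, hfM⟩ := reg_mat hb f hf C c hg
  exact seq_relative ha hk hb f M Φ C' c' hM hfM hε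

end Vale.Agent.P042.H499
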