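import Vale.Agent.P042.R2.H499.Main

set_option autoImplicit false

/-!
P042: relative density of sets without differences `a n ^ k` inside sets defined by the base `b`
digits, read from both sides by two finite automata with outputs in monoids.
-/

namespace Vale.Agent.P042.H499

open Finset Vale.Agent.P057.H380 Vale.Agent.P057.R3.H664

section trans

variable {Q M : Type} [Monoid M]

/-- The last state and the product of the outputs, in the order of reading. -/
def out (δ : Q → ℕ → Q × M) : Q → List ℕ → Q × M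
  | q, [] => (q, 1)
  | q, d :: w => ((out δ (δ q d).1 w).1, (δ q d).2 * (out δ (δ q d).1 w).2)

theorem out_append (δ : Q → ℕ → Q × M) (u v : List ℕ) (q : Q) :
    out δ q (u ++ v) =
      ((out δ (out δ q u).1 v).1, (out δ q u).2 * (out δ (out δ q u).1 v).2) := by
  induction u generalizing q with
  | nil => simp [out]
  | cons d u ih => simp [out, ih, mul_assoc]

/-- The outputs of the words of length `m` in the digits `0, …, b - 1`. -/
def outs (b : ℕ) (δ : Q → ℕ → Q × M) (m : ℕ) : Set M :=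
  {z | ∃ q : Q, ∃ w : List ℕ, w.length = m ∧ (∀ d ∈ w, d < b) ∧ (out δ q w).2 = z}

theorem outs_finite [Finite Q] (b : ℕ) (δ : Q → ℕ → Q × M) (m : ℕ) : (outs b δ m).Finite := by
  induction m with
  | zero =>
    refine (Set.finite_singleton (1 : M)).subset ?_
    rintro z ⟨q, w, hw, -, rfl⟩
    rw [List.length_eq_zero_iff] at hw
    subst hw
    simp [out]
  | succ m ih =>
    refine (Set.Finite.image2 (fun (p : Q × ℕ) (z : M) => (δ p.1 p.2).2 * z)
      ((Set.finite_univ (α := Q)).prod (Set.finite_Iio b)) ih).subset ?_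
    rintro z ⟨q, w, hw, hd, rfl⟩
    match w, hw, hd with
    | d :: w, hw, hd =>
      refine ⟨(q, d), ⟨Set.mem_univ _, hd d (List.mem_cons_self ..)⟩, (out δ (δ q d).1 w).2,
        ⟨(δ q d).1, w, ?_, ?_, rfl⟩, ?_⟩
      · simpa using hw
      · intro x hx
        exact hd x (List.mem_cons_of_mem _ hx)
      · simp [out]

end trans

theorem exists_fib {α : Type} {b m : ℕ} (hb : 0 < b) (κ : ℕ → α) (T : Finset α)
    (hκ : ∀ u, κ u ∈ T) :
    ∃ F : Finset ℕ, F ⊆ range (b ^ m) ∧ b ^ m ≤ T.card * F.card ∧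
      ∀ u ∈ F, ∀ u' ∈ F, κ u = κ u' := by
  classical
  obtain ⟨z, -, hz⟩ : ∃ z ∈ T, b ^ m ≤ T.card *
      ((range (b ^ m)).filter (fun u => κ u = z)).card := by
    by_contra hcon
    push Not at hcon
    have h1 : ∑ z ∈ T, ((range (b ^ m)).filter (fun u => κ u = z)).card = b ^ m := by
      rw [← Finset.card_eq_sum_card_fiberwise (fun u _ => Finset.mem_coe.2 (hκ u)), card_range]
    have h2 : T.card * b ^ m < T.card * b ^ m := by
      calc T.card * b ^ m = ∑ z ∈ T, T.card *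
            ((range (b ^ m)).filter (fun u => κ u = z)).card := by
            rw [← Finset.mul_sum, h1]
        _ < ∑ _z ∈ T, b ^ m :=
            Finset.sum_lt_sum_of_nonempty ⟨_, hκ 0⟩ fun z hz => hcon z hz
        _ = T.card * b ^ m := by rw [Finset.sum_const, smul_eq_mul]
    exact lt_irrefl _ h2
  refine ⟨(range (b ^ m)).filter (fun u => κ u = z), Finset.filter_subset _ _, hz, ?_⟩
  intro u hu u' hu'
  exact (Finset.mem_filter.1 hu).2.trans (Finset.mem_filter.1 hu').2.symm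

/-- The numbers whose base `b` digits, read from the last digit by the first automaton and from the
first digit by the second one, lead to a pair of (state, output) which lies in `S`. -/
def twoSet {Q M Q' M' : Type} [Monoid M] [Monoid M'] (b : ℕ) (δ : Q → ℕ → Q × M)
    (δ' : Q' → ℕ → Q' × M') (q : Q) (q' : Q') (S : Set ((Q × M) × (Q' × M'))) : Set ℕ :=
  {n | (out δ q (Nat.digits b n), out δ' q' (Nat.digits b n).reverse) ∈ S}

theorem two_cong {Q M Q' M' : Type} [Monoid M] [Monoid M'] (δ : Q → ℕ → Q × M)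
    (δ' : Q' → ℕ → Q' × M') :
    Cong (fun u v : List ℕ => (∀ q, out δ q u = out δ q v) ∧
      (∀ q, out δ' q u.reverse = out δ' q v.reverse)) where
  eqv := ⟨fun _ => ⟨fun _ => rfl, fun _ => rfl⟩,
    fun h => ⟨fun q => (h.1 q).symm, fun q => (h.2 q).symm⟩,
    fun h h' => ⟨fun q => (h.1 q).trans (h'.1 q), fun q => (h.2 q).trans (h'.2 q)⟩⟩
  app := by
    intro u u' v v' hu hv
    refine ⟨fun q => ?_, fun q => ?_⟩
    · rw [out_append, out_append, hu.1 q, hv.1]
    · rw [List.reverse_append, List.reverse_append, out_append, out_append, hv.2 q, hu.2]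

theorem two_class {s : ℕ} {M M' : Type} [Monoid M] [Monoid M'] {b : ℕ} (hb : 2 ≤ b)
    (δ : Fin s → ℕ → Fin s × M) (δ' : Fin s → ℕ → Fin s × M') (m : ℕ) :
    ∃ F : Finset ℕ, F ⊆ range (b ^ m) ∧
      b ^ m ≤ ((s * (outs b δ (m + 1)).ncard) ^ s * (s * (outs b δ' (m + 1)).ncard) ^ s) *
        F.card ∧
      ∀ u ∈ F, ∀ u' ∈ F, (∀ q, out δ q (wd b m u) = out δ q (wd b m u')) ∧
        (∀ q, out δ' q (wd b m u).reverse = out δ' q (wd b m u').reverse) := by
  classical
  set G := (outs_finite b δ (m + 1)).toFinset with hG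
  set G' := (outs_finite b δ' (m + 1)).toFinset with hG'
  obtain ⟨F, h1, h2, h3⟩ := exists_fib (b := b) (m := m) (by omega)
    (fun u => ((fun q => out δ q (wd b m u)), (fun q => out δ' q (wd b m u).reverse)))
    ((Fintype.piFinset (fun _ : Fin s => (Finset.univ : Finset (Fin s)) ×ˢ G)) ×ˢ
      (Fintype.piFinset (fun _ : Fin s => (Finset.univ : Finset (Fin s)) ×ˢ G'))) (by
      intro u
      rw [Finset.mem_product]
      constructor
      · rw [Fintype.mem_piFinset]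
        intro q
        rw [Finset.mem_product]
        refine ⟨Finset.mem_univ _, ?_⟩
        rw [hG, Set.Finite.mem_toFinset]
        exact ⟨q, wd b m u, wd_length b m u, wd_dig hb m u, rfl⟩
      · rw [Fintype.mem_piFinset]
        intro q
        rw [Finset.mem_product]
        refine ⟨Finset.mem_univ _, ?_⟩
        rw [hG', Set.Finite.mem_toFinset]
        refine ⟨q, (wd b m u).reverse, ?_, ?_, rfl⟩
        · rw [List.length_reverse, wd_length]
        · intro d hd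
          exact wd_dig hb m u d (List.mem_reverse.1 hd))
  refine ⟨F, h1, ?_, fun u hu u' hu' => ?_⟩
  · rw [Finset.card_product, Fintype.card_piFinset, Fintype.card_piFinset] at h2
    simp only [Finset.card_product, Finset.card_univ, Fintype.card_fin, Finset.prod_const] at h2
    rw [Set.ncard_eq_toFinset_card _ (outs_finite b δ (m + 1)),
      Set.ncard_eq_toFinset_card _ (outs_finite b δ' (m + 1))]
    exact h2
  · have h := h3 u hu u' hu'
    rw [Prod.mk.injEq] at h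
    exact ⟨fun q => congrFun h.1 q, fun q => congrFun h.2 q⟩

/-- Constants can be absorbed in the exponent. -/
theorem absorb {c : ℝ} (hc : c < 1) : ∃ c₂ : ℝ, c₂ < 1 ∧ ∀ A : ℝ, 0 ≤ A → ∃ D : ℝ,
    ∀ m : ℕ, 1 ≤ m → A * (m : ℝ) ^ c ≤ (m : ℝ) ^ c₂ + D := by
  set c₁ : ℝ := max c (1 / 2) with hc₁
  have h1 : c₁ < 1 := max_lt hc (by norm_num)
  have h0 : 0 < c₁ := lt_of_lt_of_le (by norm_num) (le_max_right c (1 / 2))
  set c₂ : ℝ := (c₁ + 1) / 2 with hc₂
  have hc₂1 : c₂ < 1 := by linarith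
  have hd : 0 < c₂ - c₁ := by linarith
  refine ⟨c₂, hc₂1, fun A hA => ?_⟩
  have t1 : Filter.Tendsto (fun n : ℕ => (n : ℝ) ^ (c₂ - c₁)) Filter.atTop Filter.atTop :=
    (tendsto_rpow_atTop hd).comp tendsto_natCast_atTop_atTop
  obtain ⟨n₀, hn₀⟩ := Filter.eventually_atTop.1 (t1.eventually_ge_atTop A)
  refine ⟨A * n₀, fun m hm => ?_⟩
  have hm1 : (1 : ℝ) ≤ m := by exact_mod_cast hm
  have hm0 : (0 : ℝ) < m := by linarith
  have b1 : (m : ℝ) ^ c ≤ (m : ℝ) ^ c₁ :=
    Real.rpow_le_rpow_of_exponent_le hm1 (le_max_left _ _)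
  have b0 : 0 ≤ (m : ℝ) ^ c₂ := Real.rpow_nonneg hm0.le _
  rcases le_total n₀ m with h | h
  · have h2 := hn₀ m h
    have h3 : (m : ℝ) ^ c₂ = (m : ℝ) ^ (c₂ - c₁) * (m : ℝ) ^ c₁ := by
      rw [← Real.rpow_add hm0, sub_add_cancel]
    calc A * (m : ℝ) ^ c ≤ A * (m : ℝ) ^ c₁ := mul_le_mul_of_nonneg_left b1 hA
      _ ≤ (m : ℝ) ^ (c₂ - c₁) * (m : ℝ) ^ c₁ :=
          mul_le_mul_of_nonneg_right h2 (Real.rpow_nonneg hm0.le _)
      _ = (m : ℝ) ^ c₂ := h3.symm
      _ ≤ _ := by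
          have : (0 : ℝ) ≤ A * n₀ := by positivity
          linarith
  · have h2 : (m : ℝ) ^ c₁ ≤ n₀ := by
      calc (m : ℝ) ^ c₁ ≤ (m : ℝ) ^ (1 : ℝ) := Real.rpow_le_rpow_of_exponent_le hm1 h1.le
        _ = m := Real.rpow_one _
        _ ≤ n₀ := by exact_mod_cast h
    calc A * (m : ℝ) ^ c ≤ A * n₀ := mul_le_mul_of_nonneg_left (b1.trans h2) hA
      _ ≤ _ := by linarith

/-- **Relative density, two automata, outputs in monoids of growth at most `K exp(m ^ c)`.**
The constants depend only on `a`, `k`, `b`, the number `s` of states, `c`, `K` and `ε`. -/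
theorem two_relative {a k : ℕ} (ha : 1 ≤ a) (hk : 2 ≤ k) {b : ℕ} (hb : 2 ≤ b) (s : ℕ)
    {c : ℝ} (hc : c < 1) (K : ℝ) {ε : ℝ} (hε : 0 < ε) :
    ∃ θ C : ℝ, 0 < θ ∧ θ < 1 ∧ 0 < C ∧
      ∀ (M M' : Type) [Monoid M] [Monoid M'] (δ : Fin s → ℕ → Fin s × M)
        (δ' : Fin s → ℕ → Fin s × M'),
        (∀ m : ℕ, ((outs b δ m).ncard : ℝ) ≤ K * Real.exp ((m : ℝ) ^ c)) →
        (∀ m : ℕ, ((outs b δ' m).ncard : ℝ) ≤ K * Real.exp ((m : ℝ) ^ c)) →
        ∀ (q q' : Fin s) (S : Set ((Fin s × M) × (Fin s × M'))) (A' : Set ℕ),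
          A' ⊆ twoSet b δ δ' q q' S → PowerFree a k A' → ∀ N : ℕ, 1 ≤ N →
            ((A' ∩ Set.Icc 1 N).ncard : ℝ) ≤
              ε * ((twoSet b δ δ' q q' S ∩ Set.Icc 1 N).ncard : ℝ) + C * (N : ℝ) ^ θ := by
  obtain ⟨c₂, hc₂, habs⟩ := absorb hc
  obtain ⟨D, hD⟩ := habs (2 * s) (by positivity)
  obtain ⟨θ, C, h0, h1, h2, h3⟩ := relative_growth hb (k := k) (by omega) (c := c₂)
    (K := (s * K) ^ s * (s * K) ^ s * Real.exp D) hc₂
    (PowerFree a k) (fun _ _ h hA => hA.mono h) (fun _ hA m d hm => hA.scale (by omega) m d hm)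
    (densityP ha hk) hε
  refine ⟨θ, C, h0, h1, h2, ?_⟩
  intro M M' _ _ δ δ' hg hg' q q' S A' hsub hA' N hN
  refine h3 (two_cong δ δ')
    (fun m => (((s * (outs b δ m).ncard) ^ s * (s * (outs b δ' m).ncard) ^ s : ℕ) : ℝ))
    ?_ ?_ (twoSet b δ δ' q q' S) ?_ A' hsub hA' N hN
  · intro m hm
    have e1 : (s : ℝ) * ((outs b δ m).ncard : ℝ) ≤ s * K * Real.exp ((m : ℝ) ^ c) := by
      rw [mul_assoc]
      exact mul_le_mul_of_nonneg_left (hg m) (Nat.cast_nonneg _)
    have e2 : (s : ℝ) * ((outs b δ' m).ncard : ℝ) ≤ s * K * Real.exp ((m : ℝ) ^ c) := by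
      rw [mul_assoc]
      exact mul_le_mul_of_nonneg_left (hg' m) (Nat.cast_nonneg _)
    have e3 : Real.exp ((m : ℝ) ^ c) ^ s * Real.exp ((m : ℝ) ^ c) ^ s ≤
        Real.exp D * Real.exp ((m : ℝ) ^ c₂) := by
      rw [← Real.exp_nat_mul, ← Real.exp_add, ← Real.exp_add]
      refine Real.exp_le_exp.2 ?_
      have := hD m hm
      linarith
    have hK0 : 0 ≤ (s : ℝ) * K := by
      have hE : 0 < Real.exp ((m : ℝ) ^ c) := Real.exp_pos _
      have : 0 ≤ (s : ℝ) * K * Real.exp ((m : ℝ) ^ c) := le_trans (by positivity) e1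
      exact nonneg_of_mul_nonneg_left this hE
    push_cast
    calc ((s : ℝ) * ((outs b δ m).ncard : ℝ)) ^ s * ((s : ℝ) * ((outs b δ' m).ncard : ℝ)) ^ s
        ≤ (s * K * Real.exp ((m : ℝ) ^ c)) ^ s * (s * K * Real.exp ((m : ℝ) ^ c)) ^ s :=
          mul_le_mul (pow_le_pow_left₀ (by positivity) e1 s) (pow_le_pow_left₀ (by positivity) e2 s)
            (by positivity) (by positivity)
      _ = (s * K) ^ s * (s * K) ^ s *
          (Real.exp ((m : ℝ) ^ c) ^ s * Real.exp ((m : ℝ) ^ c) ^ s) := by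
          rw [mul_pow]
          ring
      _ ≤ (s * K) ^ s * (s * K) ^ s * (Real.exp D * Real.exp ((m : ℝ) ^ c₂)) :=
          mul_le_mul_of_nonneg_left e3 (by positivity)
      _ = _ := by ring
  · intro m
    obtain ⟨F, hF1, hF2, hF3⟩ := two_class hb δ δ' m
    refine ⟨F, hF1, ?_, hF3⟩
    exact_mod_cast hF2
  · intro m n hmn
    unfold twoSet
    rw [Set.mem_ofPred_eq, Set.mem_ofPred_eq, hmn.1 q, hmn.2 q']

/-- **Relative density, two automata with outputs in commutative monoids.** The constants depend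
only on `a`, `k`, `b`, the number `s` of states and `ε`. -/
theorem comm_relative {a k : ℕ} (ha : 1 ≤ a) (hk : 2 ≤ k) {b : ℕ} (hb : 2 ≤ b) (s : ℕ)
    {ε : ℝ} (hε : 0 < ε) :
    ∃ θ C : ℝ, 0 < θ ∧ θ < 1 ∧ 0 < C ∧
      ∀ (B B' : Type) [AddCommMonoid B] [AddCommMonoid B'] (δ : Fin s → ℕ → Fin s × B)
        (δ' : Fin s → ℕ → Fin s × B') (q q' : Fin s) (S : Set ((Fin s × B) × (Fin s × B')))
        (A' : Set ℕ), A' ⊆ statSet b δ δ' q q' S → PowerFree a k A' → ∀ N : ℕ, 1 ≤ N →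
          ((A' ∩ Set.Icc 1 N).ncard : ℝ) ≤
            ε * ((statSet b δ δ' q q' S ∩ Set.Icc 1 N).ncard : ℝ) + C * (N : ℝ) ^ θ := by
  obtain ⟨c, E, hcE⟩ := exists_class (Q := Fin s) (Q' := Fin s) hb
  obtain ⟨θ, C, h0, h1, h2, h3⟩ := relative_growth hb (k := k) (by omega) (c := 1 / 2)
    (K := c * 2 ^ E * (2 * E).factorial) (by norm_num)
    (PowerFree a k) (fun _ _ h hA => hA.mono h) (fun _ hA m d hm => hA.scale (by omega) m d hm)
    (densityP ha hk) hε
  refine ⟨θ, C, h0, h1, h2, ?_⟩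
  intro B B' _ _ δ δ' q q' S A' hsub hA' N hN
  refine h3 (same_cong δ δ') (fun m => ((c * (m + 1) ^ E : ℕ) : ℝ)) ?_ ?_
    (statSet b δ δ' q q' S) (fun m n hmn => mem_of_same m n hmn) A' hsub hA' N hN
  · intro m hm
    have hm1 : (1 : ℝ) ≤ m := by exact_mod_cast hm
    have hx : (0 : ℝ) ≤ (m : ℝ) ^ (1 / 2 : ℝ) := Real.rpow_nonneg (by linarith) _
    have e1 := Real.pow_div_factorial_le_exp _ hx (2 * E)
    have e2 : ((m : ℝ) ^ (1 / 2 : ℝ)) ^ (2 * E) = (m : ℝ) ^ E := by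
      rw [pow_mul, ← Real.rpow_natCast _ 2, ← Real.rpow_mul (by linarith)]
      norm_num
    rw [e2, div_le_iff₀ (by positivity)] at e1
    have e3 : ((m : ℝ) + 1) ^ E ≤ 2 ^ E * (m : ℝ) ^ E := by
      rw [← mul_pow]
      exact pow_le_pow_left₀ (by positivity) (by linarith) E
    push_cast
    calc (c : ℝ) * ((m : ℝ) + 1) ^ E ≤ c * (2 ^ E * (m : ℝ) ^ E) :=
          mul_le_mul_of_nonneg_left e3 (Nat.cast_nonneg _)
      _ ≤ c * (2 ^ E * (Real.exp ((m : ℝ) ^ (1 / 2 : ℝ)) * ((2 * E).factorial : ℝ))) := by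
          gcongr
      _ = _ := by ring
  · intro m
    obtain ⟨F, hF1, hF2, hF3⟩ := hcE δ δ' m
    refine ⟨F, hF1, ?_, hF3⟩
    have : b ^ m ≤ c * (m + 1 + 1) ^ E * F.card := hF2
    exact_mod_cast this

end Vale.Agent.P042.H499
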