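import Vale.Agent.P042.R2.H886.Final
import Vale.Agent.P042.R2.H499.Two

set_option autoImplicit false

/-!
P042: draft of the text of DigitStatistics, version 2 (clauses 1 to 3).
-/

namespace Vale.Agent.P042.H499.V2

open Polynomial
open Vale.Agent.P057.H380 (run)

/-- The statistics of `n`, outputs in commutative monoids: `δ` reads the base `b` digits from the
bottom, starting in `q`, and `δ'` reads them from the top, starting in `q'`; `run` gives the last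
state and the sum of the outputs. -/
def stat {s : ℕ} {B B' : Type} [AddCommMonoid B] [AddCommMonoid B'] (b : ℕ)
    (δ : Fin s → ℕ → Fin s × B) (δ' : Fin s → ℕ → Fin s × B') (q q' : Fin s) (n : ℕ) :
    (Fin s × B) × (Fin s × B') :=
  (run δ q (Nat.digits b n), run δ' q' (Nat.digits b n).reverse)

/-- The last state of `δ` and the product of its outputs, in the order of reading; the outputs are
in an arbitrary monoid. -/
def out {s : ℕ} {M : Type} [Monoid M] (δ : Fin s → ℕ → Fin s × M) : Fin s → List ℕ → Fin s × M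
  | q, [] => (q, 1)
  | q, d :: w => ((out δ (δ q d).1 w).1, (δ q d).2 * (out δ (δ q d).1 w).2)

/-- The outputs of `δ` on the words of length `m` in the digits `0, …, b - 1`. -/
def outs {s : ℕ} {M : Type} [Monoid M] (b : ℕ) (δ : Fin s → ℕ → Fin s × M) (m : ℕ) : Set M :=
  {z | ∃ q : Fin s, ∃ w : List ℕ, w.length = m ∧ (∀ d ∈ w, d < b) ∧ (out δ q w).2 = z}

/-- The statistics of `n`, outputs in arbitrary monoids. -/
def mstat {s : ℕ} {M M' : Type} [Monoid M] [Monoid M'] (b : ℕ) (δ : Fin s → ℕ → Fin s × M)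
    (δ' : Fin s → ℕ → Fin s × M') (q q' : Fin s) (n : ℕ) : (Fin s × M) × (Fin s × M') :=
  (out δ q (Nat.digits b n), out δ' q' (Nat.digits b n).reverse)

theorem out_eq {s : ℕ} {M : Type} [Monoid M] (δ : Fin s → ℕ → Fin s × M) (q : Fin s)
    (w : List ℕ) : Vale.Agent.P042.H499.out δ q w = out δ q w := by
  induction w generalizing q with
  | nil => rfl
  | cons d w ih => simp [Vale.Agent.P042.H499.out, out, ih]

theorem outs_eq {s : ℕ} {M : Type} [Monoid M] (b : ℕ) (δ : Fin s → ℕ → Fin s × M) (m : ℕ) :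
    Vale.Agent.P042.H499.outs b δ m = outs b δ m := by
  unfold Vale.Agent.P042.H499.outs outs
  simp only [out_eq]

theorem result :
    -- (1)
    (∀ (h : ℤ[X]), 2 ≤ h.natDegree → 0 < h.leadingCoeff → ∀ z : ℤ, h.eval z = 0 →
      ∀ b : ℕ, 2 ≤ b → ∀ s : ℕ,
      ∃ c : ℝ, 0 < c ∧ ∃ K : ℝ, 0 < K ∧
        ∀ (B B' : Type) [AddCommMonoid B] [AddCommMonoid B'] (δ : Fin s → ℕ → Fin s × B)
          (δ' : Fin s → ℕ → Fin s × B') (q q' : Fin s) (S : Set ((Fin s × B) × (Fin s × B')))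
          (N : ℕ) (A : Finset ℤ), 1 ≤ N →
            (∀ a : ℤ, a ∈ A ↔ 1 ≤ a ∧ a ≤ N ∧ stat b δ δ' q q' a.toNat ∈ S) →
            Vale.Agent.P042.DiffFree h A → (A.card : ℝ) ≤ K * (N : ℝ) ^ (1 - c)) ∧
    -- (2)
    (∀ a k b s : ℕ, 1 ≤ a → 2 ≤ k → 2 ≤ b → ∀ ε : ℝ, 0 < ε →
      ∃ θ C : ℝ, 0 < θ ∧ θ < 1 ∧ 0 < C ∧
        ∀ (B B' : Type) [AddCommMonoid B] [AddCommMonoid B'] (δ : Fin s → ℕ → Fin s × B)
          (δ' : Fin s → ℕ → Fin s × B') (q q' : Fin s) (S : Set ((Fin s × B) × (Fin s × B')))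
          (A A' : Set ℕ), A = {n | stat b δ δ' q q' n ∈ S} → A' ⊆ A →
            (∀ x ∈ A', ∀ n : ℕ, 1 ≤ n → x + a * n ^ k ∉ A') → ∀ N : ℕ, 1 ≤ N →
              ((A' ∩ Set.Icc 1 N).ncard : ℝ) ≤
                ε * ((A ∩ Set.Icc 1 N).ncard : ℝ) + C * (N : ℝ) ^ θ) ∧
    -- (3)
    (∀ a k b s : ℕ, 1 ≤ a → 2 ≤ k → 2 ≤ b → ∀ c K ε : ℝ, c < 1 → 0 < ε →
      ∃ θ C : ℝ, 0 < θ ∧ θ < 1 ∧ 0 < C ∧
        ∀ (M M' : Type) [Monoid M] [Monoid M'] (δ : Fin s → ℕ → Fin s × M)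
          (δ' : Fin s → ℕ → Fin s × M'),
          (∀ m : ℕ, ((outs b δ m).ncard : ℝ) ≤ K * Real.exp ((m : ℝ) ^ c)) →
          (∀ m : ℕ, ((outs b δ' m).ncard : ℝ) ≤ K * Real.exp ((m : ℝ) ^ c)) →
          ∀ (q q' : Fin s) (S : Set ((Fin s × M) × (Fin s × M'))) (A A' : Set ℕ),
            A = {n | mstat b δ δ' q q' n ∈ S} → A' ⊆ A →
            (∀ x ∈ A', ∀ n : ℕ, 1 ≤ n → x + a * n ^ k ∉ A') → ∀ N : ℕ, 1 ≤ N →
              ((A' ∩ Set.Icc 1 N).ncard : ℝ) ≤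
                ε * ((A ∩ Set.Icc 1 N).ncard : ℝ) + C * (N : ℝ) ^ θ) := by
  refine ⟨?_, ?_, ?_⟩
  · intro h hd _ z hz b hb s
    obtain ⟨θ, K, hθ0, hθ1, hK, hmain⟩ :=
      Vale.Agent.P042.H886.saving h (by omega) z hz hb s
    refine ⟨1 - θ, by linarith, K, hK, ?_⟩
    intro B B' _ _ δ δ' q q' S N A hN hA hfree
    have h1 := hmain B B' δ δ' q q' S N A hN hA hfree
    rwa [show 1 - (1 - θ) = θ by ring]
  · intro a k b s ha hk hb ε hε
    obtain ⟨θ, C, h0, h1, h2, h3⟩ :=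
      Vale.Agent.P042.H499.comm_relative ha hk hb s hε
    refine ⟨θ, C, h0, h1, h2, ?_⟩
    intro B B' _ _ δ δ' q q' S A A' hA hsub hfree N hN
    subst hA
    exact h3 B B' δ δ' q q' S A' hsub hfree N hN
  · intro a k b s ha hk hb c K ε hc hε
    obtain ⟨θ, C, h0, h1, h2, h3⟩ :=
      Vale.Agent.P042.H499.two_relative ha hk hb s hc K hε
    refine ⟨θ, C, h0, h1, h2, ?_⟩
    intro M M' _ _ δ δ' hg hg' q q' S A A' hA hsub hfree N hN
    have e : Vale.Agent.P042.H499.twoSet b δ δ' q q' S = A := by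
      rw [hA]
      unfold Vale.Agent.P042.H499.twoSet mstat
      simp only [out_eq]
    have := h3 M M' δ δ' (fun m => by rw [outs_eq]; exact hg m)
      (fun m => by rw [outs_eq]; exact hg' m) q q' S A' (by rw [e]; exact hsub) hfree N hN
    rwa [e] at this

end Vale.Agent.P042.H499.V2
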